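import Mathlib

/-!
# X212 / IND (helper95), part 1: the pointwise algebra of the local index density in dimension four

`A` is an algebra with a trace `tr`, `γ 0 .. γ 3` a real Clifford module structure on the range of the
idempotent `P` (`γ_i γ_j + γ_j γ_i = -2 δ_ij P`), `ω = γ0 γ1 γ2 γ3`.  `Ω k l` is the curvature of a
Clifford connection: `[Ω_kl, γ_i] = ∑ R_klip γ_p`, `R` an algebraic curvature tensor.

* `Cl.tr_om`, `Curv.tr_Q`      : `tr ω = 0`, `tr (ω Q2) = 0`, `Q2 = ∑ γ_i γ_j Ω_ij`;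
* `Curv.dens`  : `6 tr (ω Q2 Q2) + 4 ∑ tr (ω Ω_kl Ω_kl) = 6 ∑ ε tr (P Ω_ij Ω_kl) + tr P ∑ ε R_ijab R_klab`;
* `Cl.om_eq`   : chirality on one half gives `ω = s (E0 - E1)`.
-/

set_option autoImplicit false
set_option linter.unusedSectionVars false
set_option linter.unusedSimpArgs false

namespace Crest.Agent.X212.Ind95

open Finset

/-- sign of `y - x` -/
def sg (x y : Fin 4) : ℤ := if x < y then 1 else if x = y then 0 else -1

/-- the Levi-Civita symbol -/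
def eps (a b c d : Fin 4) : ℤ := sg a b * sg a c * sg a d * sg b c * sg b d * sg c d

/-- contraction with the Levi-Civita symbol -/
def E4 {S : Type*} [CommRing S] (f : Fin 4 → Fin 4 → Fin 4 → Fin 4 → S) : S :=
  ∑ a, ∑ b, ∑ c, ∑ d, (eps a b c d : S) * f a b c d

theorem E4_eq {S : Type*} [CommRing S] (f : Fin 4 → Fin 4 → Fin 4 → Fin 4 → S) :
    E4 f = f 0 1 2 3 - f 0 1 3 2 - f 0 2 1 3 + f 0 2 3 1 + f 0 3 1 2 - f 0 3 2 1
      - f 1 0 2 3 + f 1 0 3 2 + f 1 2 0 3 - f 1 2 3 0 - f 1 3 0 2 + f 1 3 2 0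
      + f 2 0 1 3 - f 2 0 3 1 - f 2 1 0 3 + f 2 1 3 0 + f 2 3 0 1 - f 2 3 1 0
      - f 3 0 1 2 + f 3 0 2 1 + f 3 1 0 2 - f 3 1 2 0 - f 3 2 0 1 + f 3 2 1 0 := by
  simp only [E4, Fin.sum_univ_four]
  simp (decide := true) only [eps, sg, if_true, if_false, mul_zero, zero_mul, mul_one, mul_neg, neg_neg,
    Int.cast_zero, Int.cast_one, Int.cast_neg, one_mul, neg_mul, add_zero, zero_add]
  ring

/-- for families which are antisymmetric in both pairs -/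
theorem E4_anti {S : Type*} [CommRing S] (f : Fin 4 → Fin 4 → Fin 4 → Fin 4 → S)
    (h1 : ∀ a b c d, f a b c d = - f b a c d) (h2 : ∀ a b c d, f a b c d = - f a b d c) :
    E4 f = 4 * (f 0 1 2 3 - f 0 2 1 3 + f 0 3 1 2 + f 1 2 0 3 - f 1 3 0 2 + f 2 3 0 1) := by
  rw [E4_eq, h2 0 1 3 2, h2 0 2 3 1, h2 0 3 2 1, h1 1 0 2 3, h1 1 0 3 2, h2 0 1 3 2, h2 1 2 3 0,
    h2 1 3 2 0, h1 2 0 1 3, h1 2 0 3 1, h2 0 2 3 1, h1 2 1 0 3, h1 2 1 3 0, h2 1 2 3 0, h2 2 3 1 0,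
    h1 3 0 1 2, h1 3 0 2 1, h2 0 3 2 1, h1 3 1 0 2, h1 3 1 2 0, h2 1 3 2 0, h1 3 2 0 1, h1 3 2 1 0,
    h2 2 3 1 0]
  ring

theorem E4_add {S : Type*} [CommRing S] (f g : Fin 4 → Fin 4 → Fin 4 → Fin 4 → S) :
    E4 (fun a b c d => f a b c d + g a b c d) = E4 f + E4 g := by
  simp only [E4_eq]; ring

theorem E4_mul {S : Type*} [CommRing S] (r : S) (f : Fin 4 → Fin 4 → Fin 4 → Fin 4 → S) :
    E4 (fun a b c d => r * f a b c d) = r * E4 f := by
  simp only [E4_eq]; ring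

theorem E4_sum {S : Type*} [CommRing S] {ι : Type*} (t : Finset ι)
    (f : ι → Fin 4 → Fin 4 → Fin 4 → Fin 4 → S) :
    E4 (fun a b c d => ∑ x ∈ t, f x a b c d) = ∑ x ∈ t, E4 (f x) := by
  simp only [E4_eq, sum_add_distrib, sum_sub_distrib]

theorem map_E4 {S S' : Type*} [CommRing S] [CommRing S'] {F : Type*} [FunLike F S S']
    [RingHomClass F S S'] (φ : F) (f : Fin 4 → Fin 4 → Fin 4 → Fin 4 → S) :
    φ (E4 f) = E4 (fun a b c d => φ (f a b c d)) := by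
  simp only [E4_eq, map_add, map_sub]

variable {S : Type*} [CommRing S] [Algebra ℝ S] {A : Type*} [Ring A] [Algebra S A]

lemma two_inv : (algebraMap ℝ S (1 / 2)) * 2 = 1 := by
  have : (2 : S) = algebraMap ℝ S 2 := (map_ofNat (algebraMap ℝ S) 2).symm
  rw [this, ← map_mul]; norm_num

lemma four_inv : (algebraMap ℝ S (1 / 4)) * 4 = 1 := by
  have : (4 : S) = algebraMap ℝ S 4 := (map_ofNat (algebraMap ℝ S) 4).symm
  rw [this, ← map_mul]; norm_num

lemma zero_of_neg {V : Type*} [AddCommGroup V] [Module S V] {x : V} (h : x = - x) : x = 0 := by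
  have h2 : (2 : S) • x = 0 := by
    rw [two_smul]; nth_rewrite 2 [h]; exact add_neg_cancel x
  have : x = ((algebraMap ℝ S (1 / 2)) * 2) • x := by rw [two_inv, one_smul]
  rw [this, mul_smul, h2, smul_zero]

/-- a real Clifford module structure in dimension four, in an algebra with trace -/
structure Cl (tr : A →ₗ[S] S) (γ : Fin 4 → A) (P : A) : Prop where
  comm : ∀ x y, tr (x * y) = tr (y * x)
  Pγ : ∀ i, P * γ i = γ i
  γP : ∀ i, γ i * P = γ i
  sq : ∀ i, γ i * γ i = - P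
  anti : ∀ i j, i ≠ j → γ i * γ j = - (γ j * γ i)

/-- the volume element -/
def om (γ : Fin 4 → A) : A := γ 0 * (γ 1 * (γ 2 * γ 3))

/-- Clifford multiplication by a 2-form with values in `A` -/
def C2 (γ : Fin 4 → A) (F : Fin 4 → Fin 4 → A) : A := ∑ a, ∑ b, γ a * (γ b * F a b)

/-- the commutant -/
structure Z (γ : Fin 4 → A) (P X : A) : Prop where
  c : ∀ i, γ i * X = X * γ i
  p : P * X = X

namespace Cl

variable {tr : A →ₗ[S] S} {γ : Fin 4 → A} {P : A} (h : Cl tr γ P)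
include h

lemma PP : P * P = P := by
  have h1 : P = - (γ 0 * γ 0) := by rw [h.sq, neg_neg]
  nth_rewrite 2 [h1]
  rw [mul_neg, ← mul_assoc, h.Pγ, h.sq, neg_neg]

lemma sw {i j : Fin 4} (hij : i ≠ j) (x : A) : γ i * (γ j * x) = - (γ j * (γ i * x)) := by
  rw [← mul_assoc, h.anti i j hij, neg_mul, mul_assoc]

lemma sq' (i : Fin 4) (x : A) : γ i * (γ i * x) = - (P * x) := by
  rw [← mul_assoc, h.sq, neg_mul]

lemma Pγ' (i : Fin 4) (x : A) : P * (γ i * x) = γ i * x := by rw [← mul_assoc, h.Pγ]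

lemma γP' (i : Fin 4) (x : A) : γ i * (P * x) = γ i * x := by rw [← mul_assoc, h.γP]

lemma s10 (x : A) : γ 1 * (γ 0 * x) = - (γ 0 * (γ 1 * x)) := h.sw (by decide) x
lemma s20 (x : A) : γ 2 * (γ 0 * x) = - (γ 0 * (γ 2 * x)) := h.sw (by decide) x
lemma s30 (x : A) : γ 3 * (γ 0 * x) = - (γ 0 * (γ 3 * x)) := h.sw (by decide) x
lemma s21 (x : A) : γ 2 * (γ 1 * x) = - (γ 1 * (γ 2 * x)) := h.sw (by decide) x
lemma s31 (x : A) : γ 3 * (γ 1 * x) = - (γ 1 * (γ 3 * x)) := h.sw (by decide) x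
lemma s32 (x : A) : γ 3 * (γ 2 * x) = - (γ 2 * (γ 3 * x)) := h.sw (by decide) x

lemma zP : Z γ P P := ⟨fun i => by rw [h.γP, h.Pγ], h.PP⟩

lemma zmulP {X : A} (hX : Z γ P X) : X * P = X := by
  have h1 : P = - (γ 0 * γ 0) := by rw [h.sq, neg_neg]
  have h2 : X * P = P * X := by
    rw [h1, mul_neg, neg_mul, ← mul_assoc, ← hX.c, mul_assoc, ← hX.c, mul_assoc]
  rw [h2, hX.p]

omit h in
lemma zmul {X Y : A} (hX : Z γ P X) (hY : Z γ P Y) : Z γ P (X * Y) :=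
  ⟨fun i => by rw [← mul_assoc, hX.c, mul_assoc, hY.c, mul_assoc], by rw [← mul_assoc, hX.p]⟩

lemma zsmul (r : S) : Z γ P (r • P) :=
  ⟨fun i => by rw [mul_smul_comm, smul_mul_assoc, h.γP, h.Pγ], by rw [mul_smul_comm, h.PP]⟩

/-- an element which anticommutes with one generator has trace zero -/
lemma tr_zero (k : Fin 4) {Y : A} (hY : γ k * Y = - (Y * γ k)) (hP : P * Y = Y) : tr Y = 0 := by
  have h1 : tr Y = - tr (γ k * (γ k * Y)) := by rw [h.sq', map_neg, neg_neg, hP]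
  have h2 : tr (γ k * (γ k * Y)) = tr Y := by
    rw [h.comm, hY, neg_mul, mul_assoc, h.sq, mul_neg, neg_neg, h.comm, hP]
  rw [h2] at h1
  exact zero_of_neg (S := S) h1

lemma tr2 {X : A} (hX : Z γ P X) {a b : Fin 4} (hab : a ≠ b) : tr (γ a * (γ b * X)) = 0 := by
  refine h.tr_zero a ?_ (h.Pγ' _ _)
  rw [mul_assoc, mul_assoc, ← hX.c, h.sw hab.symm, mul_neg, neg_neg]

lemma tr4 {X : A} (hX : Z γ P X) : tr (γ 0 * (γ 1 * (γ 2 * (γ 3 * X)))) = 0 := by
  refine h.tr_zero 0 ?_ (h.Pγ' _ _)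
  simp only [mul_assoc, ← hX.c, h.s30, h.s20, h.s10, mul_neg, neg_neg]

lemma om_mul (x : A) : om γ * x = γ 0 * (γ 1 * (γ 2 * (γ 3 * x))) := by
  simp only [om, mul_assoc]

lemma tr_omZ {X : A} (hX : Z γ P X) : tr (om γ * X) = 0 := by
  rw [h.om_mul]; exact h.tr4 hX

lemma om_P : om γ * P = om γ := by simp only [om, mul_assoc, h.γP]

lemma P_om : P * om γ = om γ := h.Pγ' _ _

theorem tr_om : tr (om γ) = 0 := by
  rw [← h.om_P]; exact h.tr_omZ h.zP

/-- expansion of `C2` for an antisymmetric family -/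
lemma C2_eq {F : Fin 4 → Fin 4 → A} (hF : ∀ a b, F a b = - F b a) :
    C2 γ F = (2 : S) • (γ 0 * (γ 1 * F 0 1) + γ 0 * (γ 2 * F 0 2) + γ 0 * (γ 3 * F 0 3)
      + γ 1 * (γ 2 * F 1 2) + γ 1 * (γ 3 * F 1 3) + γ 2 * (γ 3 * F 2 3)) := by
  have h0 : ∀ a, F a a = 0 := fun a => zero_of_neg (S := S) (hF a a)
  simp only [C2, Fin.sum_univ_four, h0, mul_zero, hF 1 0, hF 2 0, hF 3 0, hF 2 1, hF 3 1, hF 3 2,
    h.s10, h.s20, h.s30, h.s21, h.s31, h.s32, mul_neg, neg_neg, two_smul]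
  abel

variable {F G : Fin 4 → Fin 4 → A} {X : A}

lemma tr_C2 (hF : ∀ a b, F a b = - F b a) (zF : ∀ a b, Z γ P (F a b)) (hX : Z γ P X) :
    tr (C2 γ F * X) = 0 := by
  have t := fun a b (hab : a ≠ b) => h.tr2 (zmul (zF a b) hX) hab
  rw [h.C2_eq hF]
  simp only [smul_mul_assoc, add_mul, mul_assoc, map_smul, map_add, t 0 1 (by decide),
    t 0 2 (by decide), t 0 3 (by decide), t 1 2 (by decide), t 1 3 (by decide), t 2 3 (by decide),
    add_zero, smul_zero]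

lemma tr_om_C2 (hF : ∀ a b, F a b = - F b a) (zF : ∀ a b, Z γ P (F a b)) (hX : Z γ P X) :
    tr (om γ * (C2 γ F * X)) = 0 := by
  have t := fun a b c d (hab : a ≠ b) => h.tr2 (zmul (zF c d) hX) hab
  rw [h.C2_eq hF]
  simp only [h.om_mul, smul_mul_assoc, mul_smul_comm, add_mul, mul_add, mul_assoc, map_smul, map_add,
    h.s10, h.s20, h.s30, h.s21, h.s31, h.s32, h.sq', h.Pγ', h.γP', mul_neg, neg_neg, map_neg,
    t 0 1 _ _ (by decide), t 0 2 _ _ (by decide), t 0 3 _ _ (by decide), t 1 2 _ _ (by decide),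
    t 1 3 _ _ (by decide), t 2 3 _ _ (by decide), add_zero, smul_zero, neg_zero]

/-- moving a commutant element to the right -/
lemma zsw (hX : Z γ P X) (i : Fin 4) (y : A) : X * (γ i * y) = γ i * (X * y) := by
  rw [← mul_assoc, ← hX.c, mul_assoc]

lemma C2_comm (hX : Z γ P X) :
    X * C2 γ F = C2 γ (fun a b => X * F a b) := by
  simp only [C2, mul_sum, h.zsw hX]

theorem tr_om_C2C2 (hF : ∀ a b, F a b = - F b a) (zF : ∀ a b, Z γ P (F a b))
    (hG : ∀ a b, G a b = - G b a) (zG : ∀ a b, Z γ P (G a b)) :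
    tr (om γ * (C2 γ F * C2 γ G)) = E4 (fun a b c d => tr (F a b * G c d)) := by
  have t := fun a b c d c' d' (hab : a ≠ b) => h.tr2 (zmul (zF c d) (zG c' d')) hab
  have t4 := fun c d c' d' => h.tr4 (zmul (zF c d) (zG c' d'))
  have tp := fun c d c' d' => (zmul (zF c d) (zG c' d')).p
  rw [E4_anti _ (fun a b c d => by rw [hF a b, neg_mul, map_neg])
    (fun a b c d => by rw [hG c d, mul_neg, map_neg]), h.C2_eq hF, h.C2_eq hG]
  simp only [h.om_mul, smul_mul_assoc, mul_smul_comm, add_mul, mul_add, mul_assoc, map_smul, map_add,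
    h.zsw (zF _ _),
    h.s10, h.s20, h.s30, h.s21, h.s31, h.s32, h.sq', h.Pγ', h.γP', mul_neg, neg_neg, map_neg,
    t 0 1 _ _ _ _ (by decide), t 0 2 _ _ _ _ (by decide), t 0 3 _ _ _ _ (by decide),
    t 1 2 _ _ _ _ (by decide), t 1 3 _ _ _ _ (by decide), t 2 3 _ _ _ _ (by decide), t4, tp,
    add_zero, zero_add, neg_zero, smul_eq_mul]
  ring

theorem tr_C2C2 (hF : ∀ a b, F a b = - F b a) (zF : ∀ a b, Z γ P (F a b))
    (hG : ∀ a b, G a b = - G b a) (zG : ∀ a b, Z γ P (G a b)) :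
    tr (C2 γ F * C2 γ G) = - 2 * ∑ a, ∑ b, tr (F a b * G a b) := by
  have t := fun a b c d c' d' (hab : a ≠ b) => h.tr2 (zmul (zF c d) (zG c' d')) hab
  have t4 := fun c d c' d' => h.tr4 (zmul (zF c d) (zG c' d'))
  have tp := fun c d c' d' => (zmul (zF c d) (zG c' d')).p
  have h0 : ∀ a, F a a = 0 := fun a => zero_of_neg (S := S) (hF a a)
  rw [h.C2_eq hF, h.C2_eq hG]
  simp only [Fin.sum_univ_four, h0, zero_mul, map_zero, hF 1 0, hF 2 0, hF 3 0, hF 2 1, hF 3 1, hF 3 2,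
    hG 1 0, hG 2 0, hG 3 0, hG 2 1, hG 3 1, hG 3 2, neg_mul_neg]
  simp only [smul_mul_assoc, mul_smul_comm, add_mul, mul_add, mul_assoc, map_smul, map_add,
    h.zsw (zF _ _),
    h.s10, h.s20, h.s30, h.s21, h.s31, h.s32, h.sq', h.Pγ', h.γP', mul_neg, neg_neg, map_neg,
    t 0 1 _ _ _ _ (by decide), t 0 2 _ _ _ _ (by decide), t 0 3 _ _ _ _ (by decide),
    t 1 2 _ _ _ _ (by decide), t 1 3 _ _ _ _ (by decide), t 2 3 _ _ _ _ (by decide), t4, tp,
    add_zero, zero_add, neg_zero, smul_eq_mul]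
  ring

/-- the commutator of the spin part with a generator -/
lemma C2_comm_γ {r : Fin 4 → Fin 4 → S} (hr : ∀ a b, r a b = - r b a) (i : Fin 4) :
    C2 γ (fun a b => r a b • P) * γ i - γ i * C2 γ (fun a b => r a b • P)
      = (4 : S) • ∑ p, r i p • γ p := by
  have h0 : ∀ a, r a a = 0 := fun a => zero_of_neg (S := S) (hr a a)
  have e : ∀ j, γ j = γ j * P := fun j => (h.γP j).symm
  rw [h.C2_eq (F := fun a b => r a b • P) (fun a b => by rw [hr a b, neg_smul])]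
  have e2 : ∀ a b j, γ a * (γ b * P) * γ j = γ a * (γ b * (γ j * P)) := fun a b j => by
    rw [mul_assoc, mul_assoc, h.Pγ, h.γP]
  have e3 : ∑ p, r i p • γ p = ∑ p, r i p • (γ p * P) := by simp only [h.γP]
  rw [e3]
  fin_cases i <;>
  · simp only [Fin.zero_eta, Fin.mk_one, Fin.reduceFinMk, Fin.isValue, Fin.sum_univ_four,
      smul_mul_assoc, mul_smul_comm, add_mul, mul_add, e2, h0, hr 1 0, hr 2 0, hr 3 0, hr 2 1, hr 3 1,
      hr 3 2, h.s10, h.s20, h.s30, h.s21, h.s31, h.s32, h.sq', h.Pγ', h.γP', h.PP, mul_neg, neg_neg]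
    module

/-- chirality on one half -/
theorem om_eq {E0 E1 : A} (hP : P = E0 + E1) (h0 : γ 0 * E0 = E1 * γ 0) (h1 : E1 * P = E1)
    {s : S} (hs : om γ * E0 = s • E0) : om γ = s • (E0 - E1) := by
  have e1 : E1 = - (γ 0 * (E0 * γ 0)) := by
    rw [← mul_assoc, h0, mul_assoc, h.sq, mul_neg, neg_neg, h1]
  have e2 : ∀ x, om γ * (γ 0 * x) = - (γ 0 * (om γ * x)) := fun x => by
    simp only [h.om_mul, h.s30, h.s20, h.s10, mul_neg, neg_neg]
  have e3 : om γ * E1 = - (s • E1) := by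
    nth_rewrite 1 [e1]
    rw [mul_neg, e2, neg_neg, ← mul_assoc (om γ), hs, smul_mul_assoc, mul_smul_comm]
    nth_rewrite 1 [e1]
    rw [smul_neg, neg_neg]
  rw [← h.om_P, hP, mul_add, hs, e3, smul_sub, sub_eq_add_neg]

end Cl

/-- the curvature of a Clifford connection -/
structure Curv (γ : Fin 4 → A) (P : A) (Ω : Fin 4 → Fin 4 → A)
    (R : Fin 4 → Fin 4 → Fin 4 → Fin 4 → S) : Prop where
  anti : ∀ k l, Ω k l = - Ω l k
  cP : ∀ k l, P * Ω k l = Ω k l * P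
  cγ : ∀ k l i, Ω k l * γ i - γ i * Ω k l = ∑ p, R k l i p • γ p
  a12 : ∀ i j k l, R i j k l = - R j i k l
  a34 : ∀ i j k l, R i j k l = - R i j l k
  pair : ∀ i j k l, R i j k l = R k l i j
  bia : R 0 1 2 3 + R 1 2 0 3 + R 2 0 1 3 = 0

namespace Curv

variable {tr : A →ₗ[S] S} {γ : Fin 4 → A} {P : A} {Ω : Fin 4 → Fin 4 → A}
  {R : Fin 4 → Fin 4 → Fin 4 → Fin 4 → S} (h : Cl tr γ P) (K : Curv γ P Ω R)

variable (γ P R) in
/-- the spin part -/
noncomputable def RS (k l : Fin 4) : A := algebraMap ℝ S (1 / 4) • C2 γ (fun a b => R k l a b • P)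

variable (γ P Ω R) in
/-- the twisting part -/
noncomputable def Tw (k l : Fin 4) : A := P * Ω k l - RS γ P R k l

include h K

lemma RP_anti (k l a b : Fin 4) : R k l a b • P = - (R k l b a • P) := by rw [K.a34, neg_smul]

lemma RS_anti (k l : Fin 4) : RS γ P R k l = - RS γ P R l k := by
  simp only [RS, C2]
  rw [← smul_neg, ← sum_neg_distrib]
  congr 1
  refine sum_congr rfl fun a _ => ?_
  rw [← sum_neg_distrib]
  exact sum_congr rfl fun b _ => by rw [K.a12, neg_smul, mul_neg, mul_neg]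

lemma Tw_anti (k l : Fin 4) : Tw γ P Ω R k l = - Tw γ P Ω R l k := by
  rw [Tw, Tw, K.anti k l, RS_anti h K k l, mul_neg]; abel

lemma P_RS (k l : Fin 4) : P * RS γ P R k l = RS γ P R k l := by
  simp only [RS, C2, mul_smul_comm, mul_sum, h.Pγ']

lemma Tw_Z (k l : Fin 4) : Z γ P (Tw γ P Ω R k l) := by
  refine ⟨fun i => ?_, by rw [Tw, mul_sub, ← mul_assoc, h.PP, P_RS h K]⟩
  have h1 := h.C2_comm_γ (r := R k l) (K.a34 k l) i
  have h2 : RS γ P R k l * γ i - γ i * RS γ P R k l = ∑ p, R k l i p • γ p := by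
    rw [RS, smul_mul_assoc, mul_smul_comm, ← smul_sub, h1, smul_smul, four_inv, one_smul]
  have h3 : P * Ω k l * γ i - γ i * (P * Ω k l) = ∑ p, R k l i p • γ p := by
    have h4 : P * (Ω k l * γ i - γ i * Ω k l) = ∑ p, R k l i p • γ p := by
      rw [K.cγ, mul_sum]; simp only [mul_smul_comm, h.Pγ]
    rw [← h4, mul_sub, h.γP', h.Pγ', mul_assoc]
  rw [Tw, mul_sub, sub_mul]
  have h5 := h3.trans h2.symm
  rw [sub_eq_sub_iff_sub_eq_sub] at h5
  exact h5.symm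

lemma PΩ (k l : Fin 4) : P * Ω k l = RS γ P R k l + Tw γ P Ω R k l := by rw [Tw]; abel

/-- Lichnerowicz: the spin part of the potential is a scalar -/
theorem lich : ∃ σ : S, C2 γ (RS γ P R) = σ • P := by
  refine ⟨algebraMap ℝ S (1 / 4) * (-4 * (R 0 1 0 1 + R 0 2 0 2 + R 0 3 0 3 + R 1 2 1 2 + R 1 3 1 3
    + R 2 3 2 3)), ?_⟩
  have b1 : R 0 3 1 2 = - R 0 1 2 3 + R 0 2 1 3 := by
    have e := K.bia
    rw [K.pair 1 2 0 3, K.a12 2 0 1 3] at e
    linear_combination e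
  rw [h.C2_eq (RS_anti h K)]
  simp only [RS, h.C2_eq (RP_anti h K _ _), mul_smul_comm, mul_add,
    h.s10, h.s20, h.s30, h.s21, h.s31, h.s32, h.sq', h.Pγ', h.γP', h.PP, mul_neg, neg_neg,
    K.pair 0 2 0 1, K.pair 0 3 0 1, K.pair 1 2 0 1, K.pair 1 3 0 1, K.pair 2 3 0 1,
    K.pair 0 3 0 2, K.pair 1 2 0 2, K.pair 1 3 0 2, K.pair 2 3 0 2,
    K.pair 1 2 0 3, K.pair 1 3 0 3, K.pair 2 3 0 3, K.pair 1 3 1 2, K.pair 2 3 1 2, K.pair 2 3 1 3, b1]
  module

lemma Q_eq : ∃ σ : S, C2 γ Ω = σ • P + C2 γ (Tw γ P Ω R) := by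
  obtain ⟨σ, hσ⟩ := lich h K
  refine ⟨σ, ?_⟩
  rw [← hσ]
  simp only [C2, ← sum_add_distrib, ← mul_add, ← PΩ h K, h.γP']

/-- `tr (ω Q) = 0` -/
theorem tr_Q : tr (om γ * C2 γ Ω) = 0 := by
  obtain ⟨σ, hσ⟩ := Q_eq h K
  have h1 := h.tr_om_C2 (Tw_anti h K) (Tw_Z h K) h.zP
  have h2 : C2 γ (Tw γ P Ω R) * P = C2 γ (Tw γ P Ω R) := by
    simp only [C2, sum_mul, mul_assoc, h.zmulP (Tw_Z h K _ _)]
  rw [h2] at h1
  rw [hσ, mul_add, map_add, h1, h.tr_omZ (h.zsmul σ), add_zero]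

theorem tr_QQ : tr (om γ * (C2 γ Ω * C2 γ Ω))
    = E4 (fun a b c d => tr (Tw γ P Ω R a b * Tw γ P Ω R c d)) := by
  obtain ⟨σ, hσ⟩ := Q_eq h K
  have h1 := h.tr_om_C2 (Tw_anti h K) (Tw_Z h K) (h.zsmul σ)
  have h2 : σ • P * C2 γ (Tw γ P Ω R) = C2 γ (Tw γ P Ω R) * σ • P := by
    simp only [C2, sum_mul, mul_sum, mul_assoc, smul_mul_assoc, mul_smul_comm, h.Pγ',
      h.zmulP (Tw_Z h K _ _), smul_sum]
  rw [hσ, add_mul, mul_add, mul_add, h2]
  simp only [mul_add, map_add]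
  rw [h1, h.tr_omZ (Cl.zmul (h.zsmul σ) (h.zsmul σ)),
    h.tr_om_C2C2 (Tw_anti h K) (Tw_Z h K) (Tw_anti h K) (Tw_Z h K)]
  simp only [zero_add]

lemma RS_Tw (k l a b : Fin 4) : Tw γ P Ω R k l * RS γ P R a b = RS γ P R a b * Tw γ P Ω R k l := by
  simp only [RS, C2, mul_smul_comm, smul_mul_assoc, mul_sum, sum_mul, mul_assoc,
    h.zsw (Tw_Z h K k l), h.zmulP (Tw_Z h K k l), (Tw_Z h K k l).p]

lemma trPP (x y : S) : tr (x • P * y • P) = tr P * (x * y) := by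
  rw [smul_mul_assoc, mul_smul_comm, h.PP, map_smul, map_smul, smul_eq_mul, smul_eq_mul]; ring

theorem tr_ΩΩ (k l : Fin 4) : tr (om γ * (Ω k l * Ω k l))
    = algebraMap ℝ S (1 / 4) * algebraMap ℝ S (1 / 4) * (tr P
      * E4 (fun a b c d => R k l a b * R k l c d)) := by
  have e1 : om γ * (Ω k l * Ω k l) = om γ * ((P * Ω k l) * (P * Ω k l)) := by
    rw [mul_assoc P, ← mul_assoc (Ω k l) P, ← K.cP, ← mul_assoc P, ← mul_assoc P, h.PP,
      ← mul_assoc (om γ) (P * Ω k l), ← mul_assoc (om γ) P, h.om_P, mul_assoc]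
  have z := fun a b => h.zsmul (R k l a b)
  have h1 : tr (om γ * (RS γ P R k l * Tw γ P Ω R k l)) = 0 := by
    rw [RS, smul_mul_assoc, mul_smul_comm, map_smul,
      h.tr_om_C2 (RP_anti h K k l) z (Tw_Z h K k l), smul_zero]
  rw [e1, PΩ h K]
  simp only [add_mul, mul_add, map_add, RS_Tw h K]
  rw [h1, h.tr_omZ (Cl.zmul (Tw_Z h K k l) (Tw_Z h K k l)), add_zero, add_zero, add_zero, RS,
    smul_mul_assoc, mul_smul_comm, mul_smul_comm, mul_smul_comm, map_smul, map_smul,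
    h.tr_om_C2C2 (RP_anti h K k l) z (RP_anti h K k l) z]
  simp only [trPP h K, E4_mul, smul_eq_mul, mul_assoc]

theorem tr_PΩΩ (i j k l : Fin 4) : tr (P * (Ω i j * Ω k l))
    = tr (Tw γ P Ω R i j * Tw γ P Ω R k l) + algebraMap ℝ S (1 / 4) * algebraMap ℝ S (1 / 4)
      * (-2) * tr P * ∑ a, ∑ b, R i j a b * R k l a b := by
  have e1 : P * (Ω i j * Ω k l) = (P * Ω i j) * (P * Ω k l) := by
    rw [mul_assoc P, ← mul_assoc (Ω i j) P, ← K.cP, ← mul_assoc P (P * Ω i j), ← mul_assoc P P, h.PP,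
      mul_assoc]
  have z := fun k l a b => h.zsmul (R k l a b)
  have h1 : ∀ i j k l, tr (RS γ P R i j * Tw γ P Ω R k l) = 0 := fun i j k l => by
    rw [RS, smul_mul_assoc, map_smul, h.tr_C2 (RP_anti h K i j) (z i j) (Tw_Z h K k l), smul_zero]
  rw [e1, PΩ h K, PΩ h K, add_mul, mul_add, mul_add, RS_Tw h K]
  simp only [map_add]
  rw [h1, h1, add_zero, zero_add, RS, RS, smul_mul_assoc, mul_smul_comm, map_smul, map_smul,
    h.tr_C2C2 (RP_anti h K i j) (z i j) (RP_anti h K k l) (z k l)]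
  simp only [trPP h K, ← mul_sum, smul_eq_mul]
  ring

/-- **the local index density** -/
theorem dens : 6 * tr (om γ * (C2 γ Ω * C2 γ Ω)) + 4 * ∑ k, ∑ l, tr (om γ * (Ω k l * Ω k l))
    = 6 * E4 (fun i j k l => tr (P * (Ω i j * Ω k l)))
      + tr P * E4 (fun i j k l => ∑ a, ∑ b, R i j a b * R k l a b) := by
  have e1 : ∑ k, ∑ l, E4 (fun a b c d => R k l a b * R k l c d)
      = E4 (fun i j k l => ∑ a, ∑ b, R i j a b * R k l a b) := by
    simp only [E4_sum]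
    refine sum_congr rfl fun a _ => sum_congr rfl fun b _ => ?_
    congr 1
    funext i j k l
    rw [K.pair a b i j, K.pair a b k l]
  simp only [tr_QQ h K, tr_ΩΩ h K, tr_PΩΩ h K, E4_add, E4_mul, ← mul_sum, e1]
  have q := four_inv (S := S)
  set x := algebraMap ℝ S (1 / 4)
  linear_combination (tr P * E4 (fun i j k l => ∑ a, ∑ b, R i j a b * R k l a b) * (4 * x + 1)) * q

end Curv

end Crest.Agent.X212.Ind95
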