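import Crest.Agent.X212.Wz78.Int

/-!
# X212 / IND (helper95), part 4: definitions

`trL` (real trace), `Hb` (bundle with metric connection and potential), `hd` (heat density),
`Pr2` (adjoint pair with the weak Weitzenboeck identities), `KDim` (dimension of the kernel on smooth
sections); matrices in an orthonormal basis.
-/

set_option autoImplicit false
set_option linter.unusedSectionVars false
noncomputable section
open scoped Manifold ContDiff Topology InnerProductSpace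
open MeasureTheory Set Function Filter

namespace Crest.Agent.X212.Ind95

open Crest.Agent.X212.Sob92 Crest.Agent.X212.Wz78

section lin

variable {V W : Type*} [NormedAddCommGroup V] [InnerProductSpace ℝ V] [FiniteDimensional ℝ V]
  {κ : Type*} [Fintype κ]

/-- the real trace -/
def trL : (V →L[ℝ] V) →ₗ[ℝ] ℝ := LinearMap.trace ℝ V ∘ₗ ContinuousLinearMap.coeLM ℝ

theorem trL_apply (T : V →L[ℝ] V) : trL T = LinearMap.trace ℝ V (T : V →ₗ[ℝ] V) := rfl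

theorem trL_comm (S T : V →L[ℝ] V) : trL (S * T) = trL (T * S) :=
  LinearMap.trace_mul_comm ℝ (S : V →ₗ[ℝ] V) (T : V →ₗ[ℝ] V)

/-- matrix entries -/
def ent (b : OrthonormalBasis κ ℝ V) (k l : κ) : (V →L[ℝ] V) →L[ℝ] ℝ :=
  (innerSL ℝ (b k)).comp (ContinuousLinearMap.apply ℝ V (b l))

theorem ent_apply (b : OrthonormalBasis κ ℝ V) (k l : κ) (T : V →L[ℝ] V) :
    ent b k l T = ⟪b k, T (b l)⟫_ℝ := rfl

/-- the matrix -/
def mat (b : OrthonormalBasis κ ℝ V) (T : V →L[ℝ] V) : Matrix κ κ ℝ := Matrix.of fun k l => ent b k l T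

variable (b : OrthonormalBasis κ ℝ V)

theorem ent_sum (k : κ) (T : V →L[ℝ] V) (v : V) :
    ∑ l, ent b k l T * ⟪b l, v⟫_ℝ = ⟪b k, T v⟫_ℝ := by
  nth_rewrite 2 [← b.sum_repr' v]
  rw [map_sum, inner_sum]
  exact Finset.sum_congr rfl fun l _ => by rw [map_smul, real_inner_smul_right, ent_apply, mul_comm]

theorem ent_mul (k l : κ) (S T : V →L[ℝ] V) : ent b k l (S * T) = ∑ r, ent b k r S * ent b r l T :=
  (ent_sum b k S (T (b l))).symm

theorem mat_mul (S T : V →L[ℝ] V) : mat b (S * T) = mat b S * mat b T := by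
  ext k l
  exact ent_mul b k l S T

theorem trL_eq (T : V →L[ℝ] V) : trL T = ∑ k, ent b k k T :=
  LinearMap.trace_eq_sum_inner (T : V →ₗ[ℝ] V) b

theorem trL_mat (T : V →L[ℝ] V) : trL T = (mat b T).trace := trL_eq b T

theorem inner_co (v w : V) : ∑ k, ⟪b k, v⟫_ℝ * ⟪b k, w⟫_ℝ = ⟪v, w⟫_ℝ := by
  rw [← b.sum_inner_mul_inner v w]
  exact Finset.sum_congr rfl fun k _ => by rw [real_inner_comm v]

theorem co_sum (ξ : κ → ℝ) (k : κ) : ⟪b k, ∑ l, ξ l • b l⟫_ℝ = ξ k := by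
  classical
  exact b.orthonormal.inner_right_fintype ξ k

theorem ext_co {v w : V} (h : ∀ k, ⟪b k, v⟫_ℝ = ⟪b k, w⟫_ℝ) : v = w := by
  rw [← b.sum_repr' v, ← b.sum_repr' w]
  simp only [h]

end lin

theorem bil_sum {X ι J : Type*} [AddCommGroup X] [Module ℝ X] [Fintype ι] [Fintype J]
    (B : X →ₗ[ℝ] X →ₗ[ℝ] ℝ) (ε : ι → J → ℝ) (U W : J → X) :
    ∑ a, B (∑ i, ε a i • U i) (∑ k, ε a k • W k) = ∑ i, ∑ k, (∑ a, ε a i * ε a k) * B (U i) (W k) := by
  simp only [map_sum, map_smul, LinearMap.sum_apply, LinearMap.smul_apply, smul_eq_mul,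
    Finset.sum_mul, Finset.mul_sum]
  rw [Finset.sum_comm]
  rw [Finset.sum_comm (f := fun i k => ∑ a, ε a i * ε a k * B (U i) (W k))]
  refine Finset.sum_congr rfl fun k _ => ?_
  rw [Finset.sum_comm]
  exact Finset.sum_congr rfl fun i _ => Finset.sum_congr rfl fun a _ => by ring

theorem bil_sum2 {X ι J : Type*} [AddCommGroup X] [Module ℝ X] [Fintype ι] [Fintype J]
    (B : X →ₗ[ℝ] X →ₗ[ℝ] ℝ) (ε : ι → J → ℝ) (U : J → J → X) :
    ∑ a, ∑ c, B (∑ i, ∑ l, (ε a i * ε c l) • U i l) (∑ i, ∑ l, (ε a i * ε c l) • U i l)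
      = ∑ j, ∑ k, ∑ l, ∑ m, (∑ a, ε a j * ε a k) * (∑ a, ε a l * ε a m) * B (U j l) (U k m) := by
  have h1 : ∀ a c, ∑ i, ∑ l, (ε a i * ε c l) • U i l = ∑ i, ε a i • ∑ l, ε c l • U i l := by
    intro a c
    simp only [Finset.smul_sum, smul_smul]
  simp only [h1]
  rw [Finset.sum_comm]
  simp only [bil_sum B ε]
  rw [Finset.sum_comm]
  refine Finset.sum_congr rfl fun j _ => ?_
  rw [Finset.sum_comm]
  refine Finset.sum_congr rfl fun k _ => ?_
  rw [← Finset.mul_sum, bil_sum B ε, Finset.mul_sum]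
  refine Finset.sum_congr rfl fun l _ => ?_
  rw [Finset.mul_sum]
  exact Finset.sum_congr rfl fun m _ => by ring

variable {E H : Type*} [NormedAddCommGroup E] [NormedSpace ℝ E] [TopologicalSpace H]
  {I : ModelWithCorners ℝ E H} {M : Type*} [TopologicalSpace M] [ChartedSpace H M]
  {V W : Type*} [NormedAddCommGroup V] [InnerProductSpace ℝ V] [FiniteDimensional ℝ V]
  [NormedAddCommGroup W] [InnerProductSpace ℝ W] [FiniteDimensional ℝ W]
  {ι : Type*} [Fintype ι] [IsManifold I 1 M]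

variable (I) (e : ι → (x : M) → TangentSpace I x)

/-- a bundle `p` with the metric connection `A` and the potential `Q` -/
structure Hb (P : ι → ι → M → ℝ) (A : ι → M → V →L[ℝ] V) (p Q : M → V →L[ℝ] V) : Prop where
  sA : ∀ a x, SA I (A a) x
  proj : ∀ a x, ∑ b, P a b x • A b x = A a x
  skew : ∀ a x, Skew (A a x)
  sp : ∀ x, SA I p x
  symp : ∀ x v w, ⟪p x v, w⟫_ℝ = ⟪v, p x w⟫_ℝ
  idem : ∀ x, p x * p x = p x
  par : ∀ a x, dv I (e a) p x + (A a x * p x - p x * A a x) = 0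
  sQ : ∀ x, SA I Q x
  symQ : ∀ x v w, ⟪Q x v, w⟫_ℝ = ⟪v, Q x w⟫_ℝ
  comm : ∀ x, Q x * p x = p x * Q x

/-- the heat density -/
def hd (c : ι → ι → ι → M → ℝ) (A : ι → M → V →L[ℝ] V) (p Q : M → V →L[ℝ] V) (x : M) : ℝ :=
  1 / (32 * Real.pi ^ 2) * trL (Q x * p x * Q x * p x)
    + 1 / (192 * Real.pi ^ 2) * ∑ a, ∑ b, trL (curv I e c A a b x * p x * curv I e c A a b x * p x)

/-- smooth sections -/
def SS (p : M → V →L[ℝ] V) (u : M → V) : Prop := (∀ x, SA I u x) ∧ ∀ x, p x (u x) = u x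

/-- an adjoint pair with the weak Weitzenboeck identities -/
structure Pr2 [MeasurableSpace M] (P : ι → ι → M → ℝ) (μ : Measure M)
    (A : ι → M → V →L[ℝ] V) (p Q : M → V →L[ℝ] V) (A' : ι → M → W →L[ℝ] W) (p' Q' : M → W →L[ℝ] W)
    (D : (M → V) → M → W) (D' : (M → W) → M → V) : Prop where
  h0 : Hb I e P A p Q
  h1 : Hb I e P A' p' Q'
  sm0 : ∀ u, (∀ x, SA I u x) → ∀ x, SA I (D u) x
  sm1 : ∀ u, (∀ x, SA I u x) → ∀ x, SA I (D' u) x
  sec0 : ∀ u, SS I p u → ∀ x, p' x (D u x) = D u x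
  sec1 : ∀ u, SS I p' u → ∀ x, p x (D' u x) = D' u x
  lin0 : ∀ (r s : ℝ) u v, (∀ x, SA I u x) → (∀ x, SA I v x) →
    D (fun x => r • u x + s • v x) = fun x => r • D u x + s • D v x
  lin1 : ∀ (r s : ℝ) u v, (∀ x, SA I u x) → (∀ x, SA I v x) →
    D' (fun x => r • u x + s • v x) = fun x => r • D' u x + s • D' v x
  adj : ∀ u w, SS I p u → SS I p' w → ∫ x, ⟪D u x, w x⟫_ℝ ∂μ = ∫ x, ⟪u x, D' w x⟫_ℝ ∂μ
  w0 : ∀ u v, SS I p u → SS I p v → ∫ x, ⟪D u x, D v x⟫_ℝ ∂μ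
    = ∫ x, (∑ a, ⟪nab I e A a u x, nab I e A a v x⟫_ℝ + ⟪Q x (u x), v x⟫_ℝ) ∂μ
  w1 : ∀ u v, SS I p' u → SS I p' v → ∫ x, ⟪D' u x, D' v x⟫_ℝ ∂μ
    = ∫ x, (∑ a, ⟪nab I e A' a u x, nab I e A' a v x⟫_ℝ + ⟪Q' x (u x), v x⟫_ℝ) ∂μ
  loc0 : ∀ u v x, u =ᶠ[𝓝 x] v → D u x = D v x
  loc1 : ∀ u v x, u =ᶠ[𝓝 x] v → D' u x = D' v x
  rk : ∀ x, trL (p x) = trL (p' x)
  trQ : ∀ x, trL (Q x * p x) = trL (Q' x * p' x)

/-- the kernel of `D` on smooth sections of `p` has dimension `d` -/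
def KDim {X : Type*} [Zero X] (p : M → V →L[ℝ] V) (D : (M → V) → X) (d : ℕ) : Prop :=
  ∃ β : Fin d → M → V, LinearIndependent ℝ β ∧
    ∀ u, (SS I p u ∧ D u = 0) ↔ u ∈ Submodule.span ℝ (range β)

variable {I e}

theorem KDim.finrank {X : Type*} [Zero X] {p : M → V →L[ℝ] V} {D : (M → V) → X} {d : ℕ}
    (h : KDim I p D d) {K : Submodule ℝ (M → V)} (hK : ∀ u, u ∈ K ↔ (SS I p u ∧ D u = 0)) :
    FiniteDimensional ℝ K ∧ Module.finrank ℝ K = d := by
  obtain ⟨β, hβ, h⟩ := h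
  have e1 : K = Submodule.span ℝ (range β) := by
    ext u; rw [hK, h]
  subst e1
  exact ⟨FiniteDimensional.span_of_finite ℝ (finite_range β),
    by rw [finrank_span_eq_card hβ, Fintype.card_fin]⟩

/-- version for a kernel inside another space of sections -/
theorem KDim.finrank' {X : Type*} [Zero X] {p : M → V →L[ℝ] V} {D : (M → V) → X} {d : ℕ}
    (h : KDim I p D d) {S : Type*} [AddCommGroup S] [Module ℝ S] (j : S →ₗ[ℝ] (M → V))
    (hj : Injective j) (hK : ∀ u, u ∈ range j ↔ (SS I p u ∧ D u = 0)) :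
    FiniteDimensional ℝ S ∧ Module.finrank ℝ S = d := by
  obtain ⟨h1, h2⟩ := h.finrank (K := LinearMap.range j) hK
  have e1 := LinearEquiv.ofInjective j hj
  exact ⟨e1.symm.finiteDimensional, by rw [e1.finrank_eq, h2]⟩

theorem KDim.unique {X : Type*} [Zero X] {p : M → V →L[ℝ] V} {D : (M → V) → X} {d d' : ℕ}
    (h : KDim I p D d) (h' : KDim I p D d') : d = d' := by
  obtain ⟨β, hβ, h1⟩ := h'
  have h2 := (h.finrank (K := Submodule.span ℝ (range β)) fun u => (h1 u).symm).2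
  rw [finrank_span_eq_card hβ, Fintype.card_fin] at h2
  exact h2.symm

theorem KDim.congr {X Y : Type*} [Zero X] [Zero Y] {p : M → V →L[ℝ] V} {D : (M → V) → X}
    {D' : (M → V) → Y} {d : ℕ} (h : KDim I p D d) (hD : ∀ u, SS I p u → (D u = 0 ↔ D' u = 0)) :
    KDim I p D' d := by
  obtain ⟨β, hβ, h1⟩ := h
  refine ⟨β, hβ, fun u => ?_⟩
  rw [← h1]
  exact ⟨fun h => ⟨h.1, (hD u h.1).2 h.2⟩, fun h => ⟨h.1, (hD u h.1).1 h.2⟩⟩

end Crest.Agent.X212.Ind95
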