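import Crest.Agent.X212.Ind95.Alg
import Crest.Agent.X212.Ind95.Defs
import Crest.Agent.X212.Wz78.Var

/-!
# X212 / IND (helper95), part 7: the index density in a spanning frame (pointwise)

`Ori P o` : `o` = components of a unit four-form; `omC o ρ` the Clifford volume element; `cw`, `cwT`, `dens`.
-/

set_option autoImplicit false
set_option linter.unusedSectionVars false
noncomputable section
open scoped Manifold ContDiff Topology InnerProductSpace
open MeasureTheory Set Function Filter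

namespace Crest.Agent.X212.Ind95

open Crest.Agent.X212.Sob92 Crest.Agent.X212.Wz78

variable {ι : Type*} [Fintype ι]

/-- `P` is a projector of rank four and `o` a unit four-form on its range -/
structure Ori (P : ι → ι → ℝ) (o : ι → ι → ι → ι → ℝ) : Prop where
  pr : Pr P
  rk : ∑ a, P a a = 4
  o12 : ∀ a b c d, o a b c d = -o b a c d
  o23 : ∀ a b c d, o a b c d = -o a c b d
  o34 : ∀ a b c d, o a b c d = -o a b d c
  oP : ∀ a b c d, ∑ k, P a k * o k b c d = o a b c d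
  onm : ∑ a, ∑ b, ∑ c, ∑ d, o a b c d ^ 2 = 24

/-- the Clifford volume element -/
def omC {𝔸 : Type*} [Ring 𝔸] [Algebra ℝ 𝔸] (o : ι → ι → ι → ι → ℝ) (ρ : ι → 𝔸) : 𝔸 :=
  (1 / 24 : ℝ) • ∑ a, ∑ b, ∑ c, ∑ d, o a b c d • (ρ a * ρ b * ρ c * ρ d)

variable {V : Type*} [NormedAddCommGroup V] [InnerProductSpace ℝ V] [FiniteDimensional ℝ V]

/-- `∑ o_abcd tr (T F_ab F_cd)` -/
def cw (o : ι → ι → ι → ι → ℝ) (T : V →L[ℝ] V) (F : ι → ι → V →L[ℝ] V) : ℝ :=
  ∑ a, ∑ b, ∑ c, ∑ d, o a b c d * trL (T * F a b * F c d)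

/-- the same for the tangent bundle; `p₁ = -cwT / 32 π²` -/
def cwT (o R : ι → ι → ι → ι → ℝ) : ℝ :=
  -∑ a, ∑ b, ∑ c, ∑ d, o a b c d * ∑ k, ∑ l, R a b k l * R c d k l

/-- the index density -/
def dens (o : ι → ι → ι → ι → ℝ) (T : V →L[ℝ] V) (F : ι → ι → V →L[ℝ] V)
    (R : ι → ι → ι → ι → ℝ) : ℝ :=
  -(1 / (128 * Real.pi ^ 2)) * cw o T F + trL T / (768 * Real.pi ^ 2) * cwT o R

end Crest.Agent.X212.Ind95
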