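import Crest.Agent.X212.Ind95.Dn
import Crest.Agent.X212.Wz78.On

/-!
# X212 / IND (helper95), part 8: evaluation of the heat density of a Clifford module (pointwise)
-/

set_option autoImplicit false
set_option linter.unusedSectionVars false
noncomputable section
open scoped InnerProductSpace
open Finset

namespace Crest.Agent.X212.Ind95

open Crest.Agent.X212.Wz78 (Pr On0 On rr omA vol exists_on)

variable {ι : Type*} [Fintype ι] {P : ι → ι → ℝ} {o : ι → ι → ι → ι → ℝ} {U : Fin 4 → ι → ℝ}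

theorem Ori.on (h : Ori P o) : ∃ U, On P o U := exists_on h.pr h.rk h.o12 h.o23 h.o34 h.oP h.onm

section con

variable {X Y : Type*} [AddCommGroup X] [Module ℝ X] [AddCommGroup Y] [Module ℝ Y]

/-- contraction of two frame indices -/
def c2 (U : Fin 4 → ι → ℝ) (f : ι → ι → X) (i j : Fin 4) : X := ∑ a, ∑ b, (U i a * U j b) • f a b

/-- contraction of four frame indices -/
def q4 (U : Fin 4 → ι → ℝ) (f : ι → ι → ι → ι → ℝ) (i j k l : Fin 4) : ℝ :=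
  ∑ a, ∑ b, ∑ c, ∑ d, U i a * U j b * U k c * U l d * f a b c d

theorem sum41 {κ : Type*} [Fintype κ] (g : ι → ι → ι → ι → κ → X) :
    ∑ a, ∑ b, ∑ c, ∑ d, ∑ i, g a b c d i = ∑ i, ∑ a, ∑ b, ∑ c, ∑ d, g a b c d i := by
  symm
  rw [sum_comm]
  refine sum_congr rfl fun a _ => ?_
  rw [sum_comm]
  refine sum_congr rfl fun b _ => ?_
  rw [sum_comm]
  exact sum_congr rfl fun c _ => sum_comm

theorem sum22 {κ : Type*} [Fintype κ] (g : ι → ι → κ → κ → X) :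
    ∑ a, ∑ b, ∑ i, ∑ j, g a b i j = ∑ i, ∑ j, ∑ a, ∑ b, g a b i j := by
  rw [sum_congr rfl fun c _ => sum_comm, sum_comm]
  refine sum_congr rfl fun k _ => ?_
  rw [sum_congr rfl fun c _ => sum_comm, sum_comm]

theorem bil_c2 (B : X →ₗ[ℝ] Y →ₗ[ℝ] ℝ) (f : ι → ι → X) (g : ι → ι → Y) (i j k l : Fin 4) :
    B (c2 U f i j) (c2 U g k l) = q4 U (fun a b c d => B (f a b) (g c d)) i j k l := by
  have h1 : ∀ y, B (c2 U f i j) y = ∑ a, ∑ b, U i a * U j b * B (f a b) y := fun y => by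
    simp only [c2, map_sum, map_smul, LinearMap.sum_apply, LinearMap.smul_apply, smul_eq_mul]
  rw [h1]
  simp only [c2, q4, map_sum, map_smul, smul_eq_mul, mul_sum, mul_assoc]

theorem q4_12 (f : ι → ι → ι → ι → ℝ) (i j k l : Fin 4) :
    q4 U f i j k l = q4 U (fun a b c d => f b a c d) j i k l := by
  rw [q4, sum_comm]
  exact sum_congr rfl fun _ _ => sum_congr rfl fun _ _ => sum_congr rfl fun _ _ =>
    sum_congr rfl fun _ _ => by ring

theorem q4_23 (f : ι → ι → ι → ι → ℝ) (i j k l : Fin 4) :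
    q4 U f i j k l = q4 U (fun a b c d => f a c b d) i k j l := by
  refine sum_congr rfl fun _ _ => ?_
  rw [sum_comm]
  exact sum_congr rfl fun _ _ => sum_congr rfl fun _ _ => sum_congr rfl fun _ _ => by ring

theorem q4_34 (f : ι → ι → ι → ι → ℝ) (i j k l : Fin 4) :
    q4 U f i j k l = q4 U (fun a b c d => f a b d c) i j l k := by
  refine sum_congr rfl fun _ _ => sum_congr rfl fun _ _ => ?_
  rw [sum_comm]
  exact sum_congr rfl fun _ _ => sum_congr rfl fun _ _ => by ring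

theorem q4_neg (f : ι → ι → ι → ι → ℝ) (i j k l : Fin 4) :
    q4 U (fun a b c d => -f a b c d) i j k l = -q4 U f i j k l := by
  simp only [q4, mul_neg, sum_neg_distrib]

theorem q4_add (f g : ι → ι → ι → ι → ℝ) (i j k l : Fin 4) :
    q4 U (fun a b c d => f a b c d + g a b c d) i j k l = q4 U f i j k l + q4 U g i j k l := by
  simp only [q4, mul_add, sum_add_distrib]

theorem vol_sum (f : ι → ι → ι → ι → ℝ) :
    ∑ a, ∑ b, ∑ c, ∑ d, vol U a b c d * f a b c d = E4 (q4 U f) := by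
  simp only [vol, E4, q4, sum_mul, mul_sum]
  rw [sum41]
  refine sum_congr rfl fun i _ => ?_
  rw [sum41]
  refine sum_congr rfl fun j _ => ?_
  rw [sum41]
  refine sum_congr rfl fun k _ => ?_
  rw [sum41]
  simp only [mul_assoc]

theorem c2_pars (h : On0 P U) (B : X →ₗ[ℝ] Y →ₗ[ℝ] ℝ) (f : ι → ι → X) {g : ι → ι → Y}
    (h1 : ∀ a b, ∑ k, P a k • g k b = g a b) (h2 : ∀ a b, ∑ k, P b k • g a k = g a b) :
    ∑ i, ∑ j, B (c2 U f i j) (c2 U g i j) = ∑ a, ∑ b, B (f a b) (g a b) := by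
  simp only [bil_c2, q4]
  rw [← sum22]
  refine sum_congr rfl fun a _ => sum_congr rfl fun b _ => ?_
  rw [← sum22, ← h1 a b, map_sum]
  refine sum_congr rfl fun c _ => ?_
  rw [← h2 c b, map_smul, map_sum, smul_eq_mul, mul_sum]
  refine sum_congr rfl fun d _ => ?_
  rw [map_smul, smul_eq_mul, ← h.pr, ← h.pr, ← mul_assoc, sum_mul_sum, sum_mul]
  refine sum_congr rfl fun i _ => ?_
  rw [sum_mul]
  exact sum_congr rfl fun j _ => by ring

end con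

section alg

variable {𝔸 : Type*} [Ring 𝔸] [Algebra ℝ 𝔸]

/-- the curvature of a Clifford connection at a point -/
structure Kp (P : ι → ι → ℝ) (p : 𝔸) (ρ : ι → 𝔸) (Ω : ι → ι → 𝔸) (R : ι → ι → ι → ι → ℝ) : Prop where
  cl : Wz78.Cl P p ρ
  anti : ∀ a b, Ω a b = -Ω b a
  p1 : ∀ a b, ∑ k, P a k • Ω k b = Ω a b
  cp : ∀ a b, Ω a b * p = p * Ω a b
  cρ : ∀ a b m, Ω a b * ρ m - ρ m * Ω a b = ∑ l, R a b m l • ρ l
  cu : Wz78.Curv R
  p4 : ∀ a b m l, ∑ k, R a b m k * P k l = R a b m l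

variable {p : 𝔸} {ρ : ι → 𝔸} {Ω : ι → ι → 𝔸} {R : ι → ι → ι → ι → ℝ} {tr : 𝔸 →ₗ[ℝ] ℝ}

theorem cl4 (h : On0 P U) (C : Wz78.Cl P p ρ) (ht : ∀ x y, tr (x * y) = tr (y * x)) :
    Cl tr (rr U ρ) p :=
  ⟨ht, (h.cl4 C).Pγ, (h.cl4 C).γP, (h.cl4 C).sq, (h.cl4 C).anti⟩

theorem Kp.curv4 (K : Kp P p ρ Ω R) (h : On0 P U) : Curv (rr U ρ) p (c2 U Ω) (q4 U R) where
  anti k l := by
    rw [c2, c2, sum_comm, ← sum_neg_distrib]
    refine sum_congr rfl fun a _ => ?_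
    rw [← sum_neg_distrib]
    exact sum_congr rfl fun b _ => by rw [K.anti, smul_neg, mul_comm]
  cP k l := by simp only [c2, mul_sum, sum_mul, mul_smul_comm, smul_mul_assoc, K.cp]
  cγ k l i := by
    have h1 : ∀ a b, Ω a b * rr U ρ i - rr U ρ i * Ω a b
        = ∑ m, ∑ n, ∑ q, (U i m * R a b m n * U q n) • rr U ρ q := fun a b => by
      rw [rr, mul_sum, sum_mul, ← sum_sub_distrib]
      refine sum_congr rfl fun m _ => ?_
      rw [mul_smul_comm, smul_mul_assoc, ← smul_sub, K.cρ, smul_sum]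
      refine sum_congr rfl fun n _ => ?_
      rw [h.rho K.cl n]
      simp only [smul_sum, smul_smul, mul_assoc]
    simp only [q4, sum_smul]
    rw [← sum41]
    simp only [c2, mul_sum, sum_mul, mul_smul_comm, smul_mul_assoc, ← sum_sub_distrib, ← smul_sub, h1]
    simp only [smul_sum, smul_smul]
    refine sum_congr rfl fun _ _ => sum_congr rfl fun _ _ => sum_congr rfl fun _ _ =>
      sum_congr rfl fun _ _ => sum_congr rfl fun _ _ => ?_
    congr 1; ring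
  a12 i j k l := by
    rw [q4_12, ← q4_neg]
    exact congrArg (fun f => q4 U f j i k l) (by funext a b c d; exact K.cu.s12 _ _ _ _)
  a34 i j k l := by
    rw [q4_34, ← q4_neg]
    exact congrArg (fun f => q4 U f i j l k) (by funext a b c d; exact K.cu.s34 _ _ _ _)
  pair i j k l := by
    rw [q4_23, q4_12, q4_34, q4_23]
    exact congrArg (fun f => q4 U f k l i j) (by funext a b c d; exact K.cu.pair _ _ _ _)
  bia := by
    rw [q4_23 R 1 2 0 3, q4_12 _ 1 0 2 3, q4_12 R 2 0 1 3, q4_23 _ 0 2 1 3, ← q4_add, ← q4_add]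
    simp only [K.cu.bi, q4, mul_zero, sum_const_zero]

theorem C2_eq (h : On0 P U) (C : Wz78.Cl P p ρ) (Ω : ι → ι → 𝔸) :
    C2 (rr U ρ) (c2 U Ω) = ∑ a, ∑ b, ρ a * ρ b * Ω a b := by
  simp only [C2, c2, mul_sum, mul_smul_comm]
  rw [← sum22]
  refine sum_congr rfl fun a _ => sum_congr rfl fun b _ => ?_
  rw [h.rho C a, h.rho C b, sum_mul_sum]
  simp only [sum_mul, smul_mul_smul_comm]
  simp only [smul_mul_assoc, mul_assoc]

theorem Kp.trQ (K : Kp P p ρ Ω R) (ho : Ori P o) (ht : ∀ x y, tr (x * y) = tr (y * x)) :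
    tr (omC o ρ) = 0 ∧ tr (omC o ρ * ∑ a, ∑ b, ρ a * ρ b * Ω a b) = 0 := by
  obtain ⟨U, h⟩ := ho.on
  have e : omC o ρ = om (rr U ρ) := h.om_eq K.cl
  rw [e, ← C2_eq h.toOn0 K.cl]
  exact ⟨(cl4 h.toOn0 K.cl ht).tr_om, Curv.tr_Q (cl4 h.toOn0 K.cl ht) (K.curv4 h.toOn0)⟩

theorem Kp.dens (K : Kp P p ρ Ω R) (ho : Ori P o) (ht : ∀ x y, tr (x * y) = tr (y * x)) :
    6 * tr (omC o ρ * ((∑ a, ∑ b, ρ a * ρ b * Ω a b) * ∑ a, ∑ b, ρ a * ρ b * Ω a b))
      + 4 * ∑ a, ∑ b, tr (omC o ρ * (Ω a b * Ω a b))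
      = 6 * ∑ a, ∑ b, ∑ c, ∑ d, o a b c d * tr (p * (Ω a b * Ω c d)) - tr p * cwT o R := by
  obtain ⟨U, h⟩ := ho.on
  have e : omC o ρ = om (rr U ρ) := h.om_eq K.cl
  have h0 := Curv.dens (cl4 h.toOn0 K.cl ht) (K.curv4 h.toOn0)
  let B : 𝔸 → 𝔸 →ₗ[ℝ] 𝔸 →ₗ[ℝ] ℝ := fun w =>
    (LinearMap.mul ℝ 𝔸).compr₂ (tr ∘ₗ LinearMap.mulLeft ℝ w)
  have hB : ∀ w x y, tr (w * (x * y)) = B w x y := fun _ _ _ => rfl
  have p2 : ∀ a b, ∑ k, P b k • Ω a k = Ω a b := fun a b => by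
    rw [K.anti a b, ← K.p1 b a, ← sum_neg_distrib]
    exact sum_congr rfl fun k _ => by rw [K.anti a k, smul_neg]
  let B' : (Fin 4 → Fin 4 → ℝ) →ₗ[ℝ] (Fin 4 → Fin 4 → ℝ) →ₗ[ℝ] ℝ := LinearMap.mk₂ ℝ
    (fun S T => ∑ m, ∑ n, S m n * T m n)
    (fun S S' T => by simp only [Pi.add_apply, add_mul, sum_add_distrib])
    (fun r S T => by simp only [Pi.smul_apply, smul_eq_mul, mul_sum, mul_assoc])
    (fun S T T' => by simp only [Pi.add_apply, mul_add, sum_add_distrib])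
    (fun r S T => by simp only [Pi.smul_apply, smul_eq_mul, mul_sum, mul_left_comm])
  have h1 : ∀ i j, q4 U R i j = c2 U (fun a b => c2 U (R a b)) i j := fun i j => by
    funext k l
    simp only [q4, c2, Finset.sum_apply, Pi.smul_apply, smul_eq_mul, mul_sum, mul_assoc]
  have h2 : ∀ a b c d, B' (c2 U (R a b)) (c2 U (R c d)) = ∑ m, ∑ n, R a b m n * R c d m n :=
    fun a b c d => c2_pars h.toOn0 (LinearMap.mul ℝ ℝ) (R a b)
      (fun m n => by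
        rw [K.cu.s34 c d m n, ← K.p4 c d n m, ← sum_neg_distrib]
        exact sum_congr rfl fun k _ => by rw [K.cu.s34 c d k n, ho.pr.symm m k, smul_eq_mul]; ring)
      (fun m n => by
        rw [← K.p4 c d m n]
        exact sum_congr rfl fun k _ => by rw [ho.pr.symm n k, smul_eq_mul, mul_comm])
  have h3 : ∀ i j k l, ∑ m, ∑ n, q4 U R i j m n * q4 U R k l m n
      = q4 U (fun a b c d => ∑ m, ∑ n, R a b m n * R c d m n) i j k l := fun i j k l => by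
    simp only [← h2, ← bil_c2, h1]
    rfl
  simp only [h3] at h0
  rw [C2_eq h.toOn0 K.cl, ← e] at h0
  simp only [hB] at h0 ⊢
  rw [c2_pars h.toOn0 _ _ K.p1 p2] at h0
  simp only [bil_c2] at h0
  rw [h0, cwT]
  simp only [h.vol, vol_sum]
  ring

/-- the same with a weight `T` in the commutant -/
theorem Kp.wt (K : Kp P p ρ Ω R) (ho : Ori P o) (ht : ∀ x y, tr (x * y) = tr (y * x)) {T : 𝔸}
    (hp : T * p = p * T) (hρ : ∀ a, T * ρ a = ρ a * T) (hΩ : ∀ a b, T * Ω a b = Ω a b * T) :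
    tr (T * omC o ρ) = 0 ∧ tr (T * (omC o ρ * ∑ a, ∑ b, ρ a * ρ b * Ω a b)) = 0 ∧
    6 * tr (T * (omC o ρ * ((∑ a, ∑ b, ρ a * ρ b * Ω a b) * ∑ a, ∑ b, ρ a * ρ b * Ω a b)))
      + 4 * ∑ a, ∑ b, tr (T * (omC o ρ * (Ω a b * Ω a b)))
      = 6 * ∑ a, ∑ b, ∑ c, ∑ d, o a b c d * tr (T * (p * (Ω a b * Ω c d)))
        - tr (T * p) * cwT o R := by
  let S : Subalgebra ℝ 𝔸 := Subalgebra.centralizer ℝ {T}
  have hS : ∀ {x : 𝔸}, T * x = x * T → x ∈ S := fun h =>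
    (Subalgebra.mem_centralizer_iff ℝ).2 fun g hg => by rw [hg]; exact h
  let tr' : S →ₗ[ℝ] ℝ := tr ∘ₗ LinearMap.mulLeft ℝ T ∘ₗ S.val.toLinearMap
  have e : ∀ x : S, tr' x = tr (T * x) := fun _ => rfl
  have ht' : ∀ x y : S, tr' (x * y) = tr' (y * x) := fun x y => by
    have hy : T * y = y * T := (Subalgebra.mem_centralizer_iff ℝ).1 y.2 T rfl
    rw [e, e, Subalgebra.coe_mul, Subalgebra.coe_mul, ← mul_assoc, ht, ← mul_assoc, ← hy, mul_assoc]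
  have K' : Kp P (⟨p, hS hp⟩ : S) (fun a => ⟨ρ a, hS (hρ a)⟩) (fun a b => ⟨Ω a b, hS (hΩ a b)⟩) R :=
    { cl :=
        { rel := fun a b => Subtype.ext (K.cl.rel a b)
          pl := fun a => Subtype.ext (K.cl.pl a)
          pr := fun a => Subtype.ext (K.cl.pr a)
          proj := fun a => Subtype.ext ((map_sum S.val _ _).trans (K.cl.proj a)) }
      anti := fun a b => Subtype.ext (K.anti a b)
      p1 := fun a b => Subtype.ext ((map_sum S.val _ _).trans (K.p1 a b))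
      cp := fun a b => Subtype.ext (K.cp a b)
      cρ := fun a b m => Subtype.ext ((K.cρ a b m).trans
        (map_sum S.val (fun l => R a b m l • ⟨ρ l, hS (hρ l)⟩) _).symm)
      cu := K.cu
      p4 := K.p4 }
  have h1 := K'.trQ ho ht'
  have h2 := K'.dens ho ht'
  have e' : ∀ x : S, tr' x = tr (T * S.val x) := fun _ => rfl
  simp only [e', omC, map_mul, map_sum, map_smul, Subalgebra.coe_val] at h1 h2
  exact ⟨h1.1, h1.2, h2⟩

theorem omC_comm {T : 𝔸} (h : ∀ a b, T * (ρ a * ρ b) = ρ a * ρ b * T) :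
    T * omC o ρ = omC o ρ * T := by
  have h4 : ∀ a b c d, T * (ρ a * ρ b * ρ c * ρ d) = ρ a * ρ b * ρ c * ρ d * T := fun a b c d => by
    rw [mul_assoc (ρ a * ρ b), ← mul_assoc T, h, mul_assoc _ T, h, ← mul_assoc (ρ a * ρ b)]
  simp only [omC, mul_sum, sum_mul, mul_smul_comm, smul_mul_assoc, h4]

theorem comm2 {T : 𝔸} (h : ∀ a, T * ρ a = ρ a * T) (a b : ι) : T * (ρ a * ρ b) = ρ a * ρ b * T := by
  rw [← mul_assoc, h, mul_assoc, h, mul_assoc]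

theorem anti2 {T : 𝔸} (h : ∀ a, T * ρ a = -(ρ a * T)) (a b : ι) :
    T * (ρ a * ρ b) = ρ a * ρ b * T := by
  rw [← mul_assoc, h, neg_mul, mul_assoc, h, mul_neg, neg_neg, mul_assoc]

theorem Ori.om_om (ho : Ori P o) (C : Wz78.Cl P p ρ) : omC o ρ * omC o ρ = p := by
  obtain ⟨U, h⟩ := ho.on
  exact h.om_om C

theorem Ori.om_rho (ho : Ori P o) (C : Wz78.Cl P p ρ) (a : ι) :
    omC o ρ * ρ a = -(ρ a * omC o ρ) := by
  obtain ⟨U, h⟩ := ho.on
  exact h.om_rho C a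

theorem p_omC (C : Wz78.Cl P p ρ) : p * omC o ρ = omC o ρ := by
  simp only [omC, mul_smul_comm, mul_sum, ← mul_assoc, C.pl]

theorem omC_p (C : Wz78.Cl P p ρ) : omC o ρ * p = omC o ρ := by
  simp only [omC, smul_mul_assoc, sum_mul, mul_assoc, C.pr]

theorem Ori.p_p (ho : Ori P o) (C : Wz78.Cl P p ρ) : p * p = p := by
  nth_rewrite 2 [← ho.om_om C]
  rw [← mul_assoc, p_omC C, ho.om_om C]

theorem Kp.om_curv (K : Kp P p ρ Ω R) (ho : Ori P o) (a b : ι) :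
    omC o ρ * Ω a b = Ω a b * omC o ρ := by
  have h1 : (Ω a b - Wz78.spin ρ (R a b)) * omC o ρ = omC o ρ * (Ω a b - Wz78.spin ρ (R a b)) :=
    omC_comm (comm2 fun m => by
      have h2 := K.cl.spin_comm (K.cu.s34 a b) (K.p4 a b) m
      rw [← K.cρ, sub_eq_sub_iff_sub_eq_sub] at h2
      rw [sub_mul, mul_sub, ← neg_inj, neg_sub, neg_sub, h2])
  have h3 : omC o ρ * Wz78.spin ρ (R a b) = Wz78.spin ρ (R a b) * omC o ρ := by
    simp only [Wz78.spin, mul_sum, sum_mul, mul_smul_comm, smul_mul_assoc, anti2 (ho.om_rho K.cl)]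
  rw [sub_mul, mul_sub, h3, sub_left_inj] at h1
  exact h1.symm

/-- a grading at a point -/
structure Gp (p : 𝔸) (ρ : ι → 𝔸) (Ω : ι → ι → 𝔸) (p₀ p₁ : 𝔸) : Prop where
  id0 : p₀ * p₀ = p₀
  id1 : p₁ * p₁ = p₁
  add : p₀ + p₁ = p
  o01 : p₀ * p₁ = 0
  o10 : p₁ * p₀ = 0
  sw0 : ∀ a, ρ a * p₀ = p₁ * ρ a
  sw1 : ∀ a, ρ a * p₁ = p₀ * ρ a
  c0 : ∀ a b, Ω a b * p₀ = p₀ * Ω a b
  c1 : ∀ a b, Ω a b * p₁ = p₁ * Ω a b

variable {p₀ p₁ : 𝔸}

theorem Gp.symm (G : Gp p ρ Ω p₀ p₁) : Gp p ρ Ω p₁ p₀ :=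
  ⟨G.id1, G.id0, (add_comm _ _).trans G.add, G.o10, G.o01, G.sw1, G.sw0, G.c1, G.c0⟩

theorem Gp.cC (G : Gp p ρ Ω p₀ p₁) :
    (∑ a, ∑ b, ρ a * ρ b * Ω a b) * p₀ = p₀ * ∑ a, ∑ b, ρ a * ρ b * Ω a b := by
  simp only [sum_mul, mul_sum]
  refine sum_congr rfl fun a _ => sum_congr rfl fun b _ => ?_
  rw [mul_assoc, G.c0, mul_assoc, ← mul_assoc (ρ b), G.sw0, mul_assoc, ← mul_assoc (ρ a), G.sw1]
  simp only [mul_assoc]

theorem Kp.gr (K : Kp P p ρ Ω R) (ho : Ori P o) (ht : ∀ x y, tr (x * y) = tr (y * x))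
    (G : Gp p ρ Ω p₀ p₁) {T C : 𝔸} (hT : T = -(omC o ρ * (p₀ - p₁)))
    (hC : C = ∑ a, ∑ b, ρ a * ρ b * Ω a b) :
    tr p₀ = tr p₁ ∧ tr (C * p₀) = tr (C * p₁) ∧
      6 * (tr (C * p₀ * C * p₀) - tr (C * p₁ * C * p₁))
        + 4 * (∑ a, ∑ b, tr (Ω a b * p₀ * Ω a b * p₀) - ∑ a, ∑ b, tr (Ω a b * p₁ * Ω a b * p₁))
      = -6 * ∑ a, ∑ b, ∑ c, ∑ d, o a b c d * tr (T * Ω a b * Ω c d) + tr T * cwT o R := by
  have g1 : ∀ a, (p₀ - p₁) * ρ a = -(ρ a * (p₀ - p₁)) := fun a => by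
    rw [sub_mul, mul_sub, G.sw0, G.sw1, neg_sub]
  have g2 : (p₀ - p₁) * p = p₀ - p₁ := by
    rw [← G.add, sub_mul, mul_add, mul_add, G.id0, G.id1, G.o01, G.o10, add_zero, zero_add]
  have g3 : p * (p₀ - p₁) = p₀ - p₁ := by
    rw [← G.add, mul_sub, add_mul, add_mul, G.id0, G.id1, G.o01, G.o10, add_zero, zero_add]
  have t1 : T * p = T := by rw [hT, neg_mul, mul_assoc, g2]
  have t2 : p * T = T := by rw [hT, mul_neg, ← mul_assoc, p_omC K.cl]
  have t3 : ∀ a, T * ρ a = ρ a * T := fun a => by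
    rw [hT, neg_mul, mul_assoc, g1, mul_neg, ← mul_assoc, ho.om_rho K.cl, neg_mul, neg_neg, mul_neg,
      mul_assoc]
  have t4 : ∀ a b, T * Ω a b = Ω a b * T := fun a b => by
    rw [hT, neg_mul, mul_assoc, sub_mul, ← G.c0, ← G.c1, ← mul_sub, ← mul_assoc, K.om_curv ho,
      mul_neg, mul_assoc]
  have t5 : ∀ x, T * (omC o ρ * x) = -(p₀ * x - p₁ * x) := fun x => by
    rw [← mul_assoc, hT, neg_mul, mul_assoc (omC o ρ), omC_comm (anti2 g1), ← mul_assoc,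
      ho.om_om K.cl, g3, neg_mul, sub_mul]
  obtain ⟨h1, h2, h3⟩ := K.wt ho ht (t1.trans t2.symm) t3 t4
  have s : ∀ {q X : 𝔸}, q * q = q → X * q = q * X → tr (X * q * X * q) = tr (q * (X * X)) :=
    fun {q X} hq hX => by rw [ht, hX, ← mul_assoc, ← mul_assoc, hq, mul_assoc]
  rw [← mul_one (omC o ρ), t5, mul_one, mul_one, map_neg, map_sub, neg_eq_zero, sub_eq_zero] at h1
  rw [t5, map_neg, map_sub, neg_eq_zero, sub_eq_zero, ← hC] at h2
  refine ⟨h1, by rw [ht, h2, ht], ?_⟩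
  simp only [t5, ← hC, map_neg, map_sub, ← mul_assoc T p, t1, sum_neg_distrib, sum_sub_distrib] at h3
  have c0 : C * p₀ = p₀ * C := hC ▸ G.cC
  have c1 : C * p₁ = p₁ * C := hC ▸ G.symm.cC
  simp only [s G.id0 c0, s G.id1 c1, s G.id0 (G.c0 _ _), s G.id1 (G.c1 _ _), mul_assoc T]
  linarith

variable [StarRing 𝔸] [StarModule ℝ 𝔸]

theorem Kp.star_C (K : Kp P p ρ Ω R) (hρ : ∀ a, star (ρ a) = -ρ a) (hΩ : ∀ a b, star (Ω a b) = -Ω a b) :
    star (∑ a, ∑ b, ρ a * ρ b * Ω a b) = ∑ a, ∑ b, ρ a * ρ b * Ω a b := by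
  have h1 : ∀ a b, Ω a b * (ρ a * ρ b) = ρ a * ρ b * Ω a b
      + (∑ l, R a b a l • (ρ l * ρ b) - ∑ l, R b a b l • (ρ a * ρ l)) := fun a b => by
    have e1 : ∑ l, R a b a l • (ρ l * ρ b) = (Ω a b * ρ a - ρ a * Ω a b) * ρ b := by
      simp only [K.cρ, sum_mul, smul_mul_assoc]
    have e2 : ∑ l, R b a b l • (ρ a * ρ l) = ρ a * (Ω b a * ρ b - ρ b * Ω b a) := by
      simp only [K.cρ, mul_sum, mul_smul_comm]
    rw [e1, e2, K.anti b a]
    noncomm_ring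
  have h2 : ∑ a, ∑ b, ∑ l, R a b a l • (ρ l * ρ b) = ∑ a, ∑ b, ∑ l, R b a b l • (ρ a * ρ l) := by
    rw [sum_comm (f := fun a b => ∑ l, R b a b l • (ρ a * ρ l))]
    refine sum_congr rfl fun a _ => ?_
    rw [sum_comm]
    exact sum_congr rfl fun l _ => sum_congr rfl fun b _ => by rw [K.cu.pair]
  have h3 : ∀ a b, star (ρ a * ρ b * Ω a b) = Ω b a * (ρ b * ρ a) := fun a b => by
    rw [star_mul, star_mul, hρ, hρ, hΩ, neg_mul_neg, K.anti b a]
  simp only [star_sum, h3]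
  rw [sum_comm]
  simp only [h1, sum_add_distrib, sum_sub_distrib, h2, sub_self, add_zero]

theorem Ori.star_om (ho : Ori P o) (C : Wz78.Cl P p ρ) (hρ : ∀ a, star (ρ a) = -ρ a) :
    star (omC o ρ) = omC o ρ := by
  obtain ⟨U, h⟩ := ho.on
  have e : omC o ρ = om (rr U ρ) := h.om_eq C
  have D := h.cl4 C
  have h1 : ∀ i, star (rr U ρ i) = -rr U ρ i := fun i => by
    simp only [rr, star_sum, star_smul, star_trivial, hρ, smul_neg, sum_neg_distrib]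
  rw [e, om]
  simp only [star_mul, h1, neg_mul, mul_neg, neg_neg, mul_assoc, D.s10, D.s20, D.s21,
    D.anti 3 0 (by decide), D.anti 3 1 (by decide), D.anti 3 2 (by decide)]

end alg

end Crest.Agent.X212.Ind95
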