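import Crest.Agent.X212.Ind95.Raw
import Crest.Agent.X212.Wz78.Lich

/-!
# X212 / IND (helper95), part 9: disconnected manifolds

Restriction of frames to open subsets (`rse`, `dv_res`), extension by zero from clopen subsets (`ex`),
`index_all` : `index_raw` without connectedness.
-/

set_option autoImplicit false
set_option maxSynthPendingDepth 3
set_option linter.unusedSectionVars false
noncomputable section
open scoped Manifold ContDiff Topology InnerProductSpace Bundle ENNReal
open MeasureTheory Set Function Filter Bundle TopologicalSpace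

namespace Crest.Agent.X212.Ind95

open Crest.Agent.X212.Sob92 Crest.Agent.X212.Wz78 Crest.Agent.X212.An

section res

variable {E : Type} [NormedAddCommGroup E] [NormedSpace ℝ E]
  {HM : Type} [TopologicalSpace HM] {I : ModelWithCorners ℝ E HM}
  {M : Type} [TopologicalSpace M] [ChartedSpace HM M] [IsManifold I ∞ M]
  {X : Type*} [NormedAddCommGroup X] [NormedSpace ℝ X] {U : Opens M}

variable (U) in
/-- restriction of a vector field -/
def rse (e : (x : M) → TangentSpace I x) (x : U) : TangentSpace I x := (show E from e x.1)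

theorem dv_res (e : (x : M) → TangentSpace I x) (u : M → X) :
    dv I (rse U e) (fun y : U => u y) = fun y : U => dv I e u y := by
  funext x
  have h1 : MDifferentiableAt I 𝓘(ℝ, X) (fun y : U => u y) x ↔ MDifferentiableAt I 𝓘(ℝ, X) u x :=
    (differentiableWithinAt_localInvariantProp.liftPropAt_iff_comp_subtype_val _ _).symm
  have h2 : writtenInExtChartAt I 𝓘(ℝ, X) x (fun y : U => u y)
      =ᶠ[𝓝 (extChartAt I x.1 x.1)] writtenInExtChartAt I 𝓘(ℝ, X) x.1 u := by
    have h3 : Tendsto I.symm (𝓝 (extChartAt I x.1 x.1)) (𝓝 (chartAt HM x.1 x.1)) := by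
      have h4 := I.continuous_symm.tendsto (extChartAt I x.1 x.1)
      rwa [show I.symm (extChartAt I x.1 x.1) = chartAt HM x.1 x.1 from I.left_inv _] at h4
    filter_upwards [h3.eventually (U.chartAt_subtype_val_symm_eventuallyEq (H := HM) (x := x))] with y hy
    exact (congrArg u hy).symm
  by_cases h : MDifferentiableAt I 𝓘(ℝ, X) u x
  · exact congrArg (fun T : E →L[ℝ] X => T (e x.1)) ((h1.2 h).mfderiv.trans
      ((h2.fderivWithin_eq_of_nhds (𝕜 := ℝ)).trans h.mfderiv.symm))
  · exact congrArg (fun T : E →L[ℝ] X => T (e x.1))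
      ((mfderiv_zero_of_not_mdifferentiableAt fun h' => h (h1.1 h')).trans
        (mfderiv_zero_of_not_mdifferentiableAt h).symm)

theorem sec_iff {e : (x : M) → TangentSpace I x} {x : M} :
    ContMDiffAt I I.tangent ∞ (fun x => (⟨x, e x⟩ : TangentBundle I M)) x
      ↔ SA I (dv I e (extChartAt I x)) x := by
  refine (contMDiffAt_section (IB := I) (n := ∞) (F := E) (s := e) x).trans ?_
  refine Filter.EventuallyEq.contMDiffAt_iff ?_
  filter_upwards [(chartAt HM x).open_source.mem_nhds (mem_chart_source HM x)] with y hy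
  rw [← Trivialization.continuousLinearMapAt_apply_of_mem ℝ _ (by simpa using hy),
    TangentBundle.continuousLinearMapAt_trivializationAt hy]
  rfl

theorem sa_res {u : M → X} {x : U} : SA I (fun y : U => u y) x ↔ SA I u x := contMDiffAt_subtype_iff

theorem sm_rse {e : (x : M) → TangentSpace I x} {x : U}
    (h : ContMDiffAt I I.tangent ∞ (fun x => (⟨x, e x⟩ : TangentBundle I M)) x) :
    ContMDiffAt I I.tangent ∞ (fun x => (⟨x, rse U e x⟩ : TangentBundle I U)) x := by
  rw [sec_iff] at h ⊢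
  have h1 : dv I (rse U e) (extChartAt I x) = fun y : U => dv I e (extChartAt I x.1) y :=
    dv_res e (extChartAt I x.1)
  rw [h1]
  exact sa_res.2 h

/-- extension by zero -/
def ex {X : Type*} [Zero X] (u : U → X) : M → X := Subtype.val.extend u 0

theorem ex_val {X : Type*} [Zero X] (u : U → X) (x : U) : ex u x = u x :=
  Subtype.val_injective.extend_apply _ _ _

theorem ex_res {X : Type*} [Zero X] (u : U → X) : (fun y : U => ex u y) = u := funext (ex_val u)

theorem ex_out {X : Type*} [Zero X] (u : U → X) {x : M} (hx : x ∉ U) : ex u x = 0 :=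
  Function.extend_apply' _ _ _ fun ⟨y, hy⟩ => hx (hy ▸ y.2)

theorem ex_ev {X : Type*} [Zero X] (hU : IsClosed (U : Set M)) (u : U → X) {x : M} (hx : x ∉ U) :
    ex u =ᶠ[𝓝 x] fun _ => 0 := by
  filter_upwards [hU.isOpen_compl.mem_nhds hx] with y hy using ex_out u hy

theorem res_ev {X : Type*} [Zero X] (u : M → X) (x : U) : ex (fun y : U => u y) =ᶠ[𝓝 x.1] u := by
  filter_upwards [U.2.mem_nhds x.2] with y hy using ex_val (fun y : U => u y) ⟨y, hy⟩

theorem ex_congr {X : Type*} [Zero X] {u v : U → X} {x : U} (h : u =ᶠ[𝓝 x] v) :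
    ex u =ᶠ[𝓝 x.1] ex v := by
  rw [← U.2.isOpenEmbedding_subtypeVal.map_nhds_eq x, EventuallyEq, eventually_map]
  filter_upwards [h] with y hy
  exact (ex_val u y).trans (hy.trans (ex_val v y).symm)

theorem sa_ex (hU : IsClosed (U : Set M)) {u : U → X} (hu : ∀ x, SA I u x) (x : M) :
    SA I (ex u) x := by
  by_cases hx : x ∈ U
  · exact (sa_res (x := ⟨x, hx⟩)).1 (by rw [ex_res]; exact hu _)
  · exact contMDiffAt_const.congr_of_eventuallyEq (ex_ev hU u hx)

theorem ex_lin (r s : ℝ) (u v : U → X) :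
    ex (fun x => r • u x + s • v x) = fun x => r • ex u x + s • ex v x := by
  funext x
  by_cases hx : x ∈ U
  · have := fun u : U → X => ex_val u ⟨x, hx⟩
    simp only [this]
  · simp only [ex_out _ hx, smul_zero, add_zero]

variable {ι : Type} [Fintype ι] {e : ι → (x : M) → TangentSpace I x} {P : ι → ι → M → ℝ}
  {c : ι → ι → ι → M → ℝ}
  {V W : Type} [NormedAddCommGroup V] [InnerProductSpace ℝ V] [FiniteDimensional ℝ V]
  [NormedAddCommGroup W] [InnerProductSpace ℝ W] [FiniteDimensional ℝ W]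

variable (U) in
theorem frm_res (F : Frm I e P c) : Frm I (fun a => rse U (e a)) (fun a b (y : U) => P a b y)
    fun a b k (y : U) => c a b k y where
  se a x := sm_rse (F.se a x)
  sP a b x := sa_res.2 (F.sP a b x)
  sc a b k x := sa_res.2 (F.sc a b k x)
  pr x := F.pr x
  proj a x := F.proj a x
  br a b f x hf := by
    rw [← ex_res f] at hf ⊢
    simp only [dv_res]
    exact F.br a b _ _ (sa_res.1 hf)

theorem nab_res (A : ι → M → V →L[ℝ] V) (a : ι) (u : M → V) (x : U) :
    nab I (fun a => rse U (e a)) (fun a (y : U) => A a y) a (fun y : U => u y) x = nab I e A a u x :=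
  congrArg (· + A a x (u x)) (congrFun (dv_res (e a) u) x)

theorem hd_res (A : ι → M → V →L[ℝ] V) (p Q : M → V →L[ℝ] V) (x : U) :
    hd I (fun a => rse U (e a)) (fun a b k (y : U) => c a b k y) (fun a (y : U) => A a y)
      (fun y : U => p y) (fun y : U => Q y) x = hd I e c A p Q x := by
  simp only [hd, curv, dv_res]

variable {A : ι → M → V →L[ℝ] V} {p Q : M → V →L[ℝ] V} {A' : ι → M → W →L[ℝ] W}
  {p' Q' : M → W →L[ℝ] W} {D : (M → V) → M → W} {D' : (M → W) → M → V}

variable (U) in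
theorem Hb.res (H : Hb I e P A p Q) : Hb I (fun a => rse U (e a)) (fun a b (y : U) => P a b y)
    (fun a (y : U) => A a y) (fun y : U => p y) fun y : U => Q y where
  sA a x := sa_res.2 (H.sA a x)
  proj a x := H.proj a x
  skew a x := H.skew a x
  sp x := sa_res.2 (H.sp x)
  symp x := H.symp x
  idem x := H.idem x
  par a x := by rw [dv_res]; exact H.par a x
  sQ x := sa_res.2 (H.sQ x)
  symQ x := H.symQ x
  comm x := H.comm x

theorem ss_ex (hU : IsClosed (U : Set M)) {u : U → V} (hu : SS I (fun y : U => p y) u) :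
    SS I p (ex u) := by
  refine ⟨sa_ex hU hu.1, fun x => ?_⟩
  by_cases hx : x ∈ U
  · have h := hu.2 ⟨x, hx⟩
    rw [← ex_val u] at h
    exact h
  · rw [ex_out _ hx, map_zero]

variable (U) in
/-- restriction of an operator -/
def rsD (D : (M → V) → M → W) (u : U → V) (x : U) : W := D (ex u) x

/-- linearity on smooth functions -/
def Lin (I : ModelWithCorners ℝ E HM) (D : (M → V) → M → W) : Prop :=
  ∀ (r s : ℝ) u v, (∀ x, SA I u x) → (∀ x, SA I v x) →
    D (fun x => r • u x + s • v x) = fun x => r • D u x + s • D v x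

theorem Lin.zero (h : Lin I D) : D (fun _ => 0) = fun _ => 0 := by
  have h1 := h 0 0 0 0 (fun x => contMDiffAt_const) (fun x => contMDiffAt_const)
  simpa only [zero_smul, add_zero] using h1

theorem D_out (hU : IsClosed (U : Set M)) (h : Lin I D) (hl : ∀ u v x, u =ᶠ[𝓝 x] v → D u x = D v x)
    (u : U → V) {x : M} (hx : x ∉ U) : D (ex u) x = 0 := by
  rw [hl _ _ _ (ex_ev hU u hx), h.zero]

variable [MeasurableSpace M] [BorelSpace M] {μ : Measure M}

theorem int_res {f : M → ℝ} (hf : ∀ x ∉ U, f x = 0) :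
    ∫ x : U, f x ∂(μ.comap Subtype.val) = ∫ x, f x ∂μ :=
  (integral_subtype_comap U.2.measurableSet f).trans
    (setIntegral_eq_integral_of_forall_compl_eq_zero hf)

theorem w_res (hU : IsClosed (U : Set M)) (h : Lin I D) (hl : ∀ u v x, u =ᶠ[𝓝 x] v → D u x = D v x)
    (hw : ∀ u v, SS I p u → SS I p v → ∫ x, ⟪D u x, D v x⟫_ℝ ∂μ
      = ∫ x, (∑ a, ⟪nab I e A a u x, nab I e A a v x⟫_ℝ + ⟪Q x (u x), v x⟫_ℝ) ∂μ)
    (u v : U → V) (hu : SS I (fun y : U => p y) u) (hv : SS I (fun y : U => p y) v) :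
    ∫ x, ⟪rsD U D u x, rsD U D v x⟫_ℝ ∂(μ.comap Subtype.val)
      = ∫ x : U, (∑ a, ⟪nab I (fun a => rse U (e a)) (fun a (y : U) => A a y) a u x,
          nab I (fun a => rse U (e a)) (fun a (y : U) => A a y) a v x⟫_ℝ
        + ⟪Q x (u x), v x⟫_ℝ) ∂(μ.comap Subtype.val) := by
  have h1 := hw _ _ (ss_ex hU hu) (ss_ex hU hv)
  rw [← int_res (U := U) fun x hx => by rw [D_out hU h hl v hx, inner_zero_right],
    ← int_res (U := U) fun x hx => by
      have : ∀ a, nab I e A a (ex v) x = 0 := fun a => by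
        rw [nab_congr a (ex_ev hU v hx), nab, dv_const, map_zero, add_zero, Pi.zero_apply]
      simp only [this, ex_out v hx, inner_zero_right, Finset.sum_const_zero, add_zero]] at h1
  simp only [← nab_res, ex_val] at h1
  exact h1

theorem Pr2.res (hU : IsClosed (U : Set M)) (R : Pr2 I e P μ A p Q A' p' Q' D D') :
    Pr2 I (fun a => rse U (e a)) (fun a b (y : U) => P a b y) (μ.comap Subtype.val)
      (fun a (y : U) => A a y) (fun y : U => p y) (fun y : U => Q y)
      (fun a (y : U) => A' a y) (fun y : U => p' y) (fun y : U => Q' y) (rsD U D) (rsD U D') where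
  h0 := R.h0.res U
  h1 := R.h1.res U
  sm0 u hu x := sa_res.2 (R.sm0 _ (sa_ex hU hu) x)
  sm1 u hu x := sa_res.2 (R.sm1 _ (sa_ex hU hu) x)
  sec0 u hu x := R.sec0 _ (ss_ex hU hu) x
  sec1 u hu x := R.sec1 _ (ss_ex hU hu) x
  lin0 r s u v hu hv := by
    funext x
    rw [rsD, ex_lin, R.lin0 r s _ _ (sa_ex hU hu) (sa_ex hU hv)]
    rfl
  lin1 r s u v hu hv := by
    funext x
    rw [rsD, ex_lin, R.lin1 r s _ _ (sa_ex hU hu) (sa_ex hU hv)]
    rfl
  adj u w hu hw := by
    have h1 := R.adj _ _ (ss_ex hU hu) (ss_ex hU hw)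
    rw [← int_res (U := U) fun x hx => by rw [ex_out w hx, inner_zero_right],
      ← int_res (U := U) fun x hx => by rw [ex_out u hx, inner_zero_left]] at h1
    simp only [ex_val] at h1
    exact h1
  w0 := w_res hU R.lin0 R.loc0 R.w0
  w1 := w_res hU R.lin1 R.loc1 R.w1
  loc0 u v x h := R.loc0 _ _ _ (ex_congr h)
  loc1 u v x h := R.loc1 _ _ _ (ex_congr h)
  rk x := R.rk x
  trQ x := R.trQ x

/-- kernel sections supported in `S` -/
def kerS (p : M → V →L[ℝ] V) (h : Lin I D) (S : Set M) : Submodule ℝ (M → V) where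
  carrier := {u | (SS I p u ∧ D u = 0) ∧ ∀ x ∉ S, u x = 0}
  add_mem' := fun {u v} hu hv => by
    refine ⟨⟨⟨fun x => (hu.1.1.1 x).add (hv.1.1.1 x), fun x => ?_⟩, ?_⟩, fun x hx => ?_⟩
    · rw [Pi.add_apply, map_add, hu.1.1.2, hv.1.1.2]
    · have h1 := h 1 1 u v hu.1.1.1 hv.1.1.1
      simp only [one_smul, hu.1.2, hv.1.2, Pi.zero_apply, add_zero] at h1
      exact h1
    · rw [Pi.add_apply, hu.2 x hx, hv.2 x hx, add_zero]
  zero_mem' := ⟨⟨⟨fun x => contMDiffAt_const, fun x => map_zero _⟩, h.zero⟩, fun _ _ => rfl⟩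
  smul_mem' := fun r u hu => by
    refine ⟨⟨⟨fun x => SA.smul (f := fun _ => r) contMDiffAt_const (hu.1.1.1 x), fun x => ?_⟩, ?_⟩,
      fun x hx => ?_⟩
    · rw [Pi.smul_apply, map_smul, hu.1.1.2]
    · have h1 := h r 0 u u hu.1.1.1 hu.1.1.1
      simp only [zero_smul, hu.1.2, Pi.zero_apply, add_zero, smul_zero] at h1
      exact h1
    · rw [Pi.smul_apply, hu.2 x hx, smul_zero]

theorem ex_mem (hU : IsClosed (U : Set M)) (h : Lin I D) (hl : ∀ u v x, u =ᶠ[𝓝 x] v → D u x = D v x)
    {u : U → V} (hu : SS I (fun y : U => p y) u) (h0 : rsD U D u = 0) : ex u ∈ kerS p h U := by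
  refine ⟨⟨ss_ex hU hu, funext fun x => ?_⟩, fun x hx => ex_out u hx⟩
  by_cases hx : x ∈ U
  · exact congrFun h0 ⟨x, hx⟩
  · exact D_out hU h hl u hx

theorem res_ker (hl : ∀ u v x, u =ᶠ[𝓝 x] v → D u x = D v x) {u : M → V} (hu : SS I p u)
    (h0 : D u = 0) : SS I (fun y : U => p y) (fun y : U => u y) ∧ rsD U D (fun y : U => u y) = 0 :=
  ⟨⟨fun x => sa_res.2 (hu.1 x), fun x => hu.2 x⟩,
    funext fun x => (hl _ _ _ (res_ev u x)).trans (congrFun h0 x)⟩

theorem kerS_rank (hU : IsClosed (U : Set M)) (h : Lin I D)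
    (hl : ∀ u v x, u =ᶠ[𝓝 x] v → D u x = D v x) {d : ℕ} (K : KDim I (fun y : U => p y) (rsD U D) d) :
    FiniteDimensional ℝ (kerS p h U) ∧ Module.finrank ℝ (kerS p h U) = d := by
  refine K.finrank' (LinearMap.funLeft ℝ V (Subtype.val : U → M) ∘ₗ (kerS p h U).subtype) ?_
    fun u => ⟨?_, fun hu => ⟨⟨ex u, ex_mem hU h hl hu.1 hu.2⟩, ex_res u⟩⟩
  · refine (injective_iff_map_eq_zero _).2 fun u hu => Subtype.ext (funext fun x => ?_)
    by_cases hx : x ∈ U
    · exact congrFun hu ⟨x, hx⟩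
    · exact u.2.2 x hx
  · rintro ⟨v, rfl⟩
    exact res_ker hl v.2.1.1 v.2.1.2

theorem kdim_sum {J : Type} [Fintype J] (U : J → Opens M) (hU : ∀ j, IsClosed (U j : Set M))
    (cp : M → J) (hcp : ∀ x j, x ∈ U j ↔ cp x = j) (h : Lin I D)
    (hl : ∀ u v x, u =ᶠ[𝓝 x] v → D u x = D v x) {d : J → ℕ}
    (K : ∀ j, KDim I (fun y : U j => p y) (rsD (U j) D) (d j)) : KDim I p D (∑ j, d j) := by
  classical
  have hf := fun j => (kerS_rank (hU j) h hl (K j)).1
  let Φ : (∀ j, kerS p h (U j)) →ₗ[ℝ] (M → V) :=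
    ∑ j, (kerS p h (U j)).subtype ∘ₗ LinearMap.proj j
  have hΦ : ∀ v x, Φ v x = (v (cp x)).1 x := fun v x => by
    simp only [Φ, LinearMap.sum_apply, Finset.sum_apply, LinearMap.comp_apply, LinearMap.proj_apply,
      Submodule.subtype_apply]
    exact Finset.sum_eq_single (cp x)
      (fun j _ hj => (v j).2.2 x fun hx => hj ((hcp x j).1 hx).symm) fun h => absurd (Finset.mem_univ _) h
  have hi : Injective Φ := by
    refine (injective_iff_map_eq_zero _).2 fun v hv => funext fun j => Subtype.ext (funext fun x => ?_)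
    by_cases hx : x ∈ U j
    · obtain rfl := (hcp x j).1 hx
      exact (hΦ v x).symm.trans (congrFun hv x)
    · exact (v j).2.2 x hx
  have hr : ∀ u, (SS I p u ∧ D u = 0) ↔ u ∈ LinearMap.range Φ := fun u => by
    constructor
    · intro hu
      refine ⟨fun j => ⟨ex fun y : U j => u y, ex_mem (hU j) h hl (res_ker hl hu.1 hu.2).1
        (res_ker hl hu.1 hu.2).2⟩, funext fun x => ?_⟩
      rw [hΦ]
      exact ex_val (fun y : U (cp x) => u y) ⟨x, (hcp x _).2 rfl⟩
    · rintro ⟨v, rfl⟩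
      have h1 : Φ v ∈ kerS p h univ := by
        simp only [Φ, LinearMap.sum_apply]
        exact Submodule.sum_mem _ fun j _ => ⟨(v j).2.1, fun x hx => absurd (mem_univ x) hx⟩
      exact h1.1
  have h2 : Module.finrank ℝ (∀ j, kerS p h (U j)) = ∑ j, d j := by
    rw [Module.finrank_pi_fintype]
    exact Finset.sum_congr rfl fun j _ => (kerS_rank (hU j) h hl (K j)).2
  let b := Module.finBasisOfFinrankEq ℝ _ h2
  refine ⟨Φ ∘ b, b.linearIndependent.map' Φ (LinearMap.ker_eq_bot.2 hi), fun u => ?_⟩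
  rw [hr, range_comp, ← Submodule.map_span, b.span_eq, Submodule.map_top]

theorem kdim_zero (h : Lin I D) (hp : ∀ x, p x = 0) : KDim I p D 0 := by
  refine ⟨Fin.elim0, linearIndependent_empty_type, fun u => ?_⟩
  rw [range_eq_empty, Submodule.span_empty, Submodule.mem_bot]
  refine ⟨fun hu => funext fun x => ?_, ?_⟩
  · rw [← hu.1.2 x, hp]; rfl
  · rintro rfl
    exact ⟨⟨fun x => contMDiffAt_const, fun x => map_zero _⟩, h.zero⟩

theorem Hb.cont_hd (H : Hb I e P A p Q) (F : Frm I e P c) : Continuous (hd I e c A p Q) := by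
  have t : ∀ {T : M → V →L[ℝ] V}, (∀ x, SA I T x) → Continuous fun x => trL (T x * p x * T x * p x) :=
    fun {T} hT => (trL (V := V)).continuous_of_finiteDimensional.comp
      (continuous_iff_continuousAt.2 fun x =>
        ((((hT x).mul (H.sp x)).mul (hT x)).mul (H.sp x)).continuousAt)
  exact (continuous_const.mul (t H.sQ)).add (continuous_const.mul
    (continuous_finsetSum _ fun a _ => continuous_finsetSum _ fun b _ =>
      t fun x => F.sCurv (fun a => H.sA a x) a b))

end res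

section f4

variable {N : Type} [TopologicalSpace N] [ChartedSpace R4 N] [IsManifold (𝓡 4) ∞ N]
  [MeasurableSpace N] [BorelSpace N] {ι : Type} [Fintype ι]
  {e : ι → (x : N) → TangentSpace (𝓡 4) x} {P : ι → ι → N → ℝ} {c : ι → ι → ι → N → ℝ}
  {μ : Measure N}
  {V W : Type} [NormedAddCommGroup V] [InnerProductSpace ℝ V] [FiniteDimensional ℝ V]
  [NormedAddCommGroup W] [InnerProductSpace ℝ W] [FiniteDimensional ℝ W]
  {A : ι → N → V →L[ℝ] V} {p Q : N → V →L[ℝ] V} {A' : ι → N → W →L[ℝ] W} {p' Q' : N → W →L[ℝ] W}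
  {D : (N → V) → N → W} {D' : (N → W) → N → V}

theorem F4.res (U : Opens N) (F : F4 e P c μ) : F4 (fun a => rse U (e a))
    (fun a b (y : U) => P a b y) (fun a b k (y : U) => c a b k y) (μ.comap Subtype.val) where
  frm := frm_res U F.frm
  span x := F.span x
  ker x := F.ker x
  vol x₀ := by
    obtain ⟨O, h1, h2, h3, h4⟩ := F.vol x₀
    have hs : ∀ y : U, y.1 ∈ O → y ∈ (chartAt R4 x₀).source := fun y hy => by
      rw [Opens.chartAt_eq, OpenPartialHomeomorph.subtypeRestr_source]
      exact h3 hy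
    refine ⟨Subtype.val ⁻¹' O, h1.preimage continuous_subtype_val, h2, hs, fun s hm hO => ?_⟩
    have h5 : MeasurableSet (Subtype.val '' s) := U.2.measurableSet.subtype_image hm
    have h6 : chartAt R4 x₀ '' s = chartAt R4 x₀.1 '' (Subtype.val '' s) := by
      rw [image_image]; rfl
    refine ((MeasurableEmbedding.subtype_coe U.2.measurableSet).comap_apply μ s).trans ?_
    refine (h4 _ h5 (image_subset_iff.2 hO)).trans ?_
    rw [← h6]
    refine setLIntegral_congr_fun ?_ ?_
    · rw [h6]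
      exact ms_img (I := 𝓡 4) x₀.1 h5 (by
        rw [extChartAt_source]; exact (image_subset_iff.2 hO).trans h3)
    · rintro _ ⟨y, hy, rfl⟩
      have h7 : (chartAt R4 x₀.1).symm (chartAt R4 x₀ y) = y := (chartAt R4 x₀.1).left_inv (h3 (hO hy))
      have h8 : ∀ a, dv (𝓡 4) (rse U (e a)) (chartAt R4 x₀) y = dv (𝓡 4) (e a) (chartAt R4 x₀.1) y :=
        fun a => congrFun (dv_res (e a) (chartAt R4 x₀.1)) y
      beta_reduce
      rw [h7, (chartAt R4 x₀).left_inv (hs y (hO hy))]
      simp only [gr4, h8]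

theorem index_f4' [T2Space N] [CompactSpace N] [ConnectedSpace N] (F : F4 e P c μ)
    (R : Pr2 (𝓡 4) e P μ A p Q A' p' Q' D D') :
    ∃ d d' : ℕ, KDim (𝓡 4) p D d ∧ KDim (𝓡 4) p' D' d' ∧
      (d : ℝ) - d' = ∫ x, (hd (𝓡 4) e c A p Q x - hd (𝓡 4) e c A' p' Q' x) ∂μ := by
  by_cases h : ∃ x, p x ≠ 0
  · exact index_f4 F R h
  push Not at h
  have h' : ∀ x, p' x = 0 := fun x => by
    by_contra h0
    exact (trL_proj_pos (R.h1.symp x) (R.h1.idem x)).1 h0 (by rw [← R.rk, h, map_zero])
  refine ⟨0, 0, kdim_zero R.lin0 h, kdim_zero R.lin1 h', ?_⟩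
  simp [hd, h, h']

theorem index_f4_all [T2Space N] [CompactSpace N] [IsFiniteMeasure μ] (F : F4 e P c μ)
    (R : Pr2 (𝓡 4) e P μ A p Q A' p' Q' D D') :
    ∃ d d' : ℕ, KDim (𝓡 4) p D d ∧ KDim (𝓡 4) p' D' d' ∧
      (d : ℝ) - d' = ∫ x, (hd (𝓡 4) e c A p Q x - hd (𝓡 4) e c A' p' Q' x) ∂μ := by
  classical
  have : LocallyConnectedSpace N := ChartedSpace.locallyConnectedSpace R4 N
  let J := ConnectedComponents N
  have : Fintype J := Fintype.ofFinite J
  let U : J → Opens N := fun j => ⟨ConnectedComponents.mk ⁻¹' {j},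
    (isOpen_discrete _).preimage ConnectedComponents.continuous_coe⟩
  have hU : ∀ j, IsClosed (U j : Set N) := fun j =>
    (isClosed_discrete {j}).preimage ConnectedComponents.continuous_coe
  have hc : ∀ j, ConnectedSpace (U j) := fun j => by
    obtain ⟨x, rfl⟩ := ConnectedComponents.surjective_coe j
    refine isConnected_iff_connectedSpace.1 ?_
    change IsConnected (ConnectedComponents.mk ⁻¹' {ConnectedComponents.mk x})
    rw [connectedComponents_preimage_singleton]
    exact isConnected_connectedComponent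
  have hk : ∀ j, CompactSpace (U j) := fun j => isCompact_iff_compactSpace.1 (hU j).isCompact
  choose d d' h1 h2 h3 using fun j => index_f4' (F.res (U j)) (R.res (hU j))
  refine ⟨_, _, kdim_sum U hU ConnectedComponents.mk (fun _ _ => Iff.rfl) R.lin0 R.loc0 h1,
    kdim_sum U hU ConnectedComponents.mk (fun _ _ => Iff.rfl) R.lin1 R.loc1 h2, ?_⟩
  have hi : Integrable (fun x => hd (𝓡 4) e c A p Q x - hd (𝓡 4) e c A' p' Q' x) μ :=
    ((R.h0.cont_hd F.frm).sub (R.h1.cont_hd F.frm)).integrable_of_hasCompactSupport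
      (HasCompactSupport.of_compactSpace _)
  have h4 := integral_iUnion_fintype (μ := μ) (s := fun j => (U j : Set N))
    (fun j => (U j).2.measurableSet)
    (fun j k hjk => disjoint_left.2 fun x hj hk => hjk (Eq.trans (Eq.symm hj) hk))
    fun j => hi.integrableOn
  rw [show ⋃ j, (U j : Set N) = univ from eq_univ_of_forall fun x => mem_iUnion.2 ⟨_, rfl⟩,
    Measure.restrict_univ] at h4
  rw [h4, Nat.cast_sum, Nat.cast_sum, ← Finset.sum_sub_distrib]
  refine Finset.sum_congr rfl fun j _ => ?_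
  rw [h3 j]
  simp only [hd_res]
  exact integral_subtype_comap (U j).2.measurableSet
    fun x => hd (𝓡 4) e c A p Q x - hd (𝓡 4) e c A' p' Q' x

end f4

variable {E : Type} [NormedAddCommGroup E] [NormedSpace ℝ E] [FiniteDimensional ℝ E]
  [MeasurableSpace E] [BorelSpace E]
  {HM : Type} [TopologicalSpace HM] {I : ModelWithCorners ℝ E HM} [I.Boundaryless]
  {M : Type} [TopologicalSpace M] [ChartedSpace HM M] [IsManifold I ∞ M]
  [MeasurableSpace M] [BorelSpace M] {ι : Type} [Fintype ι]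
  {V W : Type} [NormedAddCommGroup V] [InnerProductSpace ℝ V] [FiniteDimensional ℝ V]
  [NormedAddCommGroup W] [InnerProductSpace ℝ W] [FiniteDimensional ℝ W]

/-- **McKean-Singer and the heat density** on any closed four-manifold -/
theorem index_all [T2Space M] [CompactSpace M] (hE : Module.finrank ℝ E = 4)
    (F : Fr I M ι) (hv : F.IsVol)
    {A : ι → M → V →L[ℝ] V} {p Q : M → V →L[ℝ] V} {A' : ι → M → W →L[ℝ] W} {p' Q' : M → W →L[ℝ] W}
    {D : (M → V) → M → W} {D' : (M → W) → M → V} (R : Pr2 I F.e F.P F.μ A p Q A' p' Q' D D') :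
    ∃ d d' : ℕ, KDim I p D d ∧ KDim I p' D' d' ∧
      (d : ℝ) - d' = ∫ x, (hd I F.e F.c A p Q x - hd I F.e F.c A' p' Q' x) ∂F.μ := by
  have : IsFiniteMeasure (α := Rc I (L4 hE) M) F.μ := (inferInstance : IsFiniteMeasure F.μ)
  obtain ⟨d, d', h1, h2, h3⟩ := index_f4_all (f4_of_fr hE F hv) (R.rc (L4 hE))
  refine ⟨d, d', h1.of_rc _, h2.of_rc _, ?_⟩
  simp only [hd, ← curv_rc (L4 hE)]
  exact h3

end Crest.Agent.X212.Ind95
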