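import Crest.Agent.X212.Ind95.Pt
import Crest.Agent.X212.Ind95.Dis

/-!
# X212 / IND (helper95), part 10: the index theorem for Dirac operators on closed four-manifolds

* `index_gr`   : graded Clifford modules;
* `index_main` : grading by the chirality.
-/

set_option autoImplicit false
set_option linter.unusedSectionVars false
noncomputable section
open scoped Manifold ContDiff Topology InnerProductSpace
open MeasureTheory Set Function Filter

namespace Crest.Agent.X212.Ind95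

open Crest.Agent.X212.Sob92 Crest.Agent.X212.Wz78 Crest.Agent.X212.An

section lin

variable {V : Type*} [NormedAddCommGroup V] [InnerProductSpace ℝ V] [CompleteSpace V] {T : V →L[ℝ] V}

theorem skew_iff : Skew T ↔ star T = -T := by
  rw [ContinuousLinearMap.star_eq_adjoint, eq_comm, ContinuousLinearMap.eq_adjoint_iff]
  simp only [neg_apply, inner_neg_left, neg_eq_iff_eq_neg]
  rfl

theorem sym_iff : (∀ v w, ⟪T v, w⟫_ℝ = ⟪v, T w⟫_ℝ) ↔ star T = T := by
  rw [ContinuousLinearMap.star_eq_adjoint, eq_comm, ContinuousLinearMap.eq_adjoint_iff]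

end lin

variable {E : Type} [NormedAddCommGroup E] [NormedSpace ℝ E] [FiniteDimensional ℝ E]
  [MeasurableSpace E] [BorelSpace E]
  {HM : Type} [TopologicalSpace HM] {I : ModelWithCorners ℝ E HM}
  {M : Type} [TopologicalSpace M] [ChartedSpace HM M] [IsManifold I ∞ M]
  [MeasurableSpace M] {ι : Type} [Fintype ι]
  {V : Type} [NormedAddCommGroup V] [InnerProductSpace ℝ V] [FiniteDimensional ℝ V]

theorem dir_lin (e : ι → (x : M) → TangentSpace I x) (ρ A : ι → M → V →L[ℝ] V) :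
    Lin I (dir I e ρ A) := fun r s u v hu hv => by
  funext x
  have h1 : ∀ (r : ℝ) {u : M → V}, SA I u x → SA I (fun y => r • u y) x := fun r _ h =>
    SA.smul (f := fun _ => r) contMDiffAt_const h
  have h2 : ∀ (r : ℝ) (a : ι) {u : M → V}, SA I u x →
      nab I e A a (fun y => r • u y) x = r • nab I e A a u x := fun r a _ h => by
    rw [nab_smul a (f := fun _ => r) contMDiffAt_const h, dv_const, Pi.zero_apply, zero_smul, zero_add]
  simp only [dir, nab_add _ (h1 r (hu x)) (h1 s (hv x)), h2 _ _ (hu x), h2 _ _ (hv x), map_add, map_smul,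
    Finset.sum_add_distrib, Finset.smul_sum]

theorem dir_loc (e : ι → (x : M) → TangentSpace I x) (ρ A : ι → M → V →L[ℝ] V) (u v : M → V) (x : M)
    (h : u =ᶠ[𝓝 x] v) : dir I e ρ A u x = dir I e ρ A v x := by
  simp only [dir, nab_congr _ h]

theorem skew_curv {e : ι → (x : M) → TangentSpace I x} {c : ι → ι → ι → M → ℝ}
    {A : ι → M → V →L[ℝ] V} (hs : ∀ a x, SA I (A a) x) (hA : ∀ a x, Skew (A a x)) (a b : ι) (x : M) :
    Skew (curv I e c A a b x) := by
  have := FiniteDimensional.complete ℝ V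
  have h1 : ∀ a b, star (dv I (e a) (A b) x) = -dv I (e a) (A b) x := fun a b => by
    refine skew_iff.1 fun v w => ?_
    have h2 := dv_clm (e := e a) ((innerSL ℝ w).comp (ContinuousLinearMap.apply ℝ V v)
      + (innerSL ℝ v).comp (ContinuousLinearMap.apply ℝ V w)) (hs b x).md
    have h3 : (fun y => ((innerSL ℝ w).comp (ContinuousLinearMap.apply ℝ V v)
        + (innerSL ℝ v).comp (ContinuousLinearMap.apply ℝ V w)) (A b y)) = fun _ => 0 := by
      funext y
      change ⟪w, A b y v⟫_ℝ + ⟪v, A b y w⟫_ℝ = 0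
      rw [real_inner_comm, hA b y, neg_add_cancel]
    rw [h3, dv_const] at h2
    rw [real_inner_comm]
    exact eq_neg_of_add_eq_zero_left h2.symm
  have h4 := fun a => skew_iff.1 (hA a x)
  rw [skew_iff, curv]
  simp only [star_sub, star_add, star_mul, star_sum, star_smul, star_trivial, h1, h4, neg_mul_neg,
    smul_neg, Finset.sum_neg_distrib]
  abel

/-- harmonic sections of `q` -/
def K (F : Fr I M ι) (ρ A : ι → M → V →L[ℝ] V) (q : M → V →L[ℝ] V) : Submodule ℝ (M → V) where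
  carrier := {u | Sm I u ∧ (∀ x, q x (u x) = u x) ∧ dir I F.e ρ A u = 0}
  add_mem' := fun {u v} hu hv =>
    have h := (kerS q (dir_lin F.e ρ A) univ).add_mem (x := u) (y := v)
      ⟨⟨⟨hu.1, hu.2.1⟩, hu.2.2⟩, fun x hx => absurd (mem_univ x) hx⟩
      ⟨⟨⟨hv.1, hv.2.1⟩, hv.2.2⟩, fun x hx => absurd (mem_univ x) hx⟩
    ⟨h.1.1.1, h.1.1.2, h.1.2⟩
  zero_mem' := ⟨contMDiff_const, fun _ => map_zero _, (dir_lin F.e ρ A).zero⟩
  smul_mem' := fun r u hu =>
    have h := (kerS q (dir_lin F.e ρ A) univ).smul_mem r (x := u)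
      ⟨⟨⟨hu.1, hu.2.1⟩, hu.2.2⟩, fun x hx => absurd (mem_univ x) hx⟩
    ⟨h.1.1.1, h.1.1.2, h.1.2⟩

theorem mem_K {F : Fr I M ι} {ρ A : ι → M → V →L[ℝ] V} {q : M → V →L[ℝ] V} {u : M → V} :
    u ∈ K F ρ A q ↔ Sm I u ∧ (∀ x, q x (u x) = u x) ∧ dir I F.e ρ A u = 0 := Iff.rfl

/-- a Clifford module with a metric Clifford connection on a four-manifold -/
structure Dm (F : Fr I M ι) (Γ : ι → ι → ι → M → ℝ) (p : M → V →L[ℝ] V)
    (ρ A : ι → M → V →L[ℝ] V) : Prop where
  dim : Module.finrank ℝ E = 4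
  vol : F.IsVol
  riem : Riem F
  lc : LC I F.e F.P F.c Γ
  cc : CC I F.e F.P Γ p ρ A
  skA : ∀ a x, Skew (A a x)
  skρ : ∀ a x, Skew (ρ a x)

/-- a parallel grading `p = p₀ + p₁` which is reversed by Clifford multiplication -/
structure Gr (F : Fr I M ι) (p : M → V →L[ℝ] V) (ρ A : ι → M → V →L[ℝ] V)
    (p₀ p₁ : M → V →L[ℝ] V) : Prop where
  s0 : Sm I p₀
  sym0 : ∀ x v w, ⟪p₀ x v, w⟫_ℝ = ⟪v, p₀ x w⟫_ℝ
  sym1 : ∀ x v w, ⟪p₁ x v, w⟫_ℝ = ⟪v, p₁ x w⟫_ℝ
  id0 : ∀ x, p₀ x * p₀ x = p₀ x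
  id1 : ∀ x, p₁ x * p₁ x = p₁ x
  add : ∀ x, p₀ x + p₁ x = p x
  o01 : ∀ x, p₀ x * p₁ x = 0
  sw : ∀ a x, ρ a x * p₀ x = p₁ x * ρ a x
  par0 : ∀ a x, nabE I F.e A a p₀ x = 0

variable {F : Fr I M ι} {Γ : ι → ι → ι → M → ℝ} {p p₀ p₁ : M → V →L[ℝ] V}
  {ρ A : ι → M → V →L[ℝ] V} {o : ι → ι → ι → ι → M → ℝ}

theorem Gr.eq1 (G : Gr F p ρ A p₀ p₁) : p₁ = fun x => p x - p₀ x :=
  funext fun x => by rw [← G.add, add_sub_cancel_left]

theorem Gr.o10 (G : Gr F p ρ A p₀ p₁) (x : M) : p₁ x * p₀ x = 0 := by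
  have := FiniteDimensional.complete ℝ V
  rw [← sym_iff.1 (G.sym0 x), ← sym_iff.1 (G.sym1 x), ← star_mul, G.o01, star_zero]

theorem Gr.symm (G : Gr F p ρ A p₀ p₁) (C : CC I F.e F.P Γ p ρ A) : Gr F p ρ A p₁ p₀ where
  s0 := by rw [G.eq1]; exact fun x => (C.sp x).sub (G.s0 x)
  sym0 := G.sym1
  sym1 := G.sym0
  id0 := G.id1
  id1 := G.id0
  add x := (add_comm _ _).trans (G.add x)
  o01 := G.o10
  sw a x := by
    have h1 := (C.cl x).pr a
    have h2 := (C.cl x).pl a
    rw [← G.add, mul_add, G.sw] at h1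
    rw [← G.add, add_mul, add_comm] at h2
    exact add_left_cancel (h1.trans h2.symm)
  par0 a x := by
    rw [G.eq1, nabE_sub a (C.sp x) (G.s0 x), G.par0, sub_zero]
    exact C.par a x

theorem Dm.kp (D : Dm F Γ p ρ A) (x : M) : Kp (fun a b => F.P a b x) (p x) (fun a => ρ a x)
    (fun a b => curv I F.e F.c A a b x) fun a b k l => Rm I F.e F.c Γ a b k l x where
  cl := D.cc.cl x
  anti a b := D.lc.curv_anti D.cc.toCon a b x
  p1 a b := D.lc.curv_p1 (frm F) (sep F) D.cc.toCon a b x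
  cp a b := D.cc.curv_p (frm F) a b x
  cρ a b m := D.cc.curv_comp D.lc (frm F) a b m x
  cu := D.lc.curvT (frm F) (sep F) x
  p4 a b m l := D.lc.Rm_p4 (frm F) a b m l x

theorem Gr.curv0 (G : Gr F p ρ A p₀ p₁) (C : CC I F.e F.P Γ p ρ A) (a b : ι) (x : M) :
    curv I F.e F.c A a b x * p₀ x = p₀ x * curv I F.e F.c A a b x :=
  (frm F).curv_par (fun a => C.sm a x) (G.s0 x) (fun a => Eventually.of_forall (G.par0 a)) a b

theorem Gr.gp (G : Gr F p ρ A p₀ p₁) (C : CC I F.e F.P Γ p ρ A) (x : M) :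
    Gp (p x) (fun a => ρ a x) (fun a b => curv I F.e F.c A a b x) (p₀ x) (p₁ x) :=
  ⟨G.id0 x, G.id1 x, G.add x, G.o01 x, G.o10 x, fun a => G.sw a x, fun a => (G.symm C).sw a x,
    fun a b => G.curv0 C a b x, fun a b => (G.symm C).curv0 C a b x⟩

theorem Dm.wK_sym (D : Dm F Γ p ρ A) (x : M) (v w : V) :
    ⟪wK I F.e F.c ρ A x v, w⟫_ℝ = ⟪v, wK I F.e F.c ρ A x w⟫_ℝ := by
  have := FiniteDimensional.complete ℝ V
  refine sym_iff.2 ?_ v w
  rw [wK, star_smul, star_trivial, (D.kp x).star_C (fun a => skew_iff.1 (D.skρ a x))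
    fun a b => skew_iff.1 (skew_curv D.cc.sm D.skA a b x)]

theorem Gr.sec (G : Gr F p ρ A p₀ p₁) {u : M → V} (hu : SS I p₀ u) (x : M) : p x (u x) = u x := by
  have h : p x * p₀ x = p₀ x := by rw [← G.add, add_mul, G.id0, G.o10, add_zero]
  rw [← hu.2 x]
  exact congrArg (fun T : V →L[ℝ] V => T (u x)) h

theorem Gr.dir_sec (G : Gr F p ρ A p₀ p₁) {u : M → V} (hu : SS I p₀ u) (x : M) :
    p₁ x (dir I F.e ρ A u x) = dir I F.e ρ A u x := by
  rw [dir, map_sum]
  refine Finset.sum_congr rfl fun a _ => ?_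
  have h1 := nab_app' (e := F.e) (A := A) a (G.s0 x) (hu.1 x)
  simp only [hu.2, G.par0, zero_apply, zero_add] at h1
  nth_rewrite 2 [h1]
  exact (congrArg (fun T : V →L[ℝ] V => T (nab I F.e A a u x)) (G.sw a x)).symm

variable [BorelSpace M] [T2Space M] [CompactSpace M]

theorem Dm.hb (D : Dm F Γ p ρ A) (G : Gr F p ρ A p₀ p₁) : Hb I F.e F.P A p₀ (wK I F.e F.c ρ A) where
  sA := D.cc.sm
  proj := D.cc.proj
  skew := D.skA
  sp := G.s0
  symp := G.sym0
  idem := G.id0
  par := G.par0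
  sQ := sm_wK D.cc.sm D.cc.sρ
  symQ := D.wK_sym
  comm x := by rw [wK, smul_mul_assoc, mul_smul_comm, (G.gp D.cc x).cC]

theorem Dm.weitz (D : Dm F Γ p ρ A) (G : Gr F p ρ A p₀ p₁) (u v : M → V) (hu : SS I p₀ u)
    (hv : SS I p₀ v) : ∫ x, ⟪dir I F.e ρ A u x, dir I F.e ρ A v x⟫_ℝ ∂F.μ
      = ∫ x, (∑ a, ⟪nab I F.e A a u x, nab I F.e A a v x⟫_ℝ
        + ⟪wK I F.e F.c ρ A x (u x), v x⟫_ℝ) ∂F.μ := by
  rw [integral_weitz D.cc D.lc D.riem D.skA D.skρ hu.1 hv.1 (G.sec hu)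
    (HasCompactSupport.of_compactSpace _), integral_add]
  · exact integ (fun x => SA.sum _ fun a _ => SA.inner (sm_nab D.cc.sm a hu.1 x)
      (sm_nab D.cc.sm a hv.1 x))
      (HasCompactSupport.of_compactSpace _)
  · exact integ (fun x => SA.inner (SA.app (sm_wK D.cc.sm D.cc.sρ x) (hu.1 x)) (hv.1 x))
      (HasCompactSupport.of_compactSpace _)

theorem Dm.pr2 (D : Dm F Γ p ρ A) (G : Gr F p ρ A p₀ p₁)
    (ho : ∀ x, Ori (fun a b => F.P a b x) fun a b c d => o a b c d x) :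
    Pr2 I F.e F.P F.μ A p₀ (wK I F.e F.c ρ A) A p₁ (wK I F.e F.c ρ A)
      (dir I F.e ρ A) (dir I F.e ρ A) where
  h0 := D.hb G
  h1 := D.hb (G.symm D.cc)
  sm0 _ hu x := D.cc.dir_sm (frm F) (hu x)
  sm1 _ hu x := D.cc.dir_sm (frm F) (hu x)
  sec0 _ hu := G.dir_sec hu
  sec1 _ hu := (G.symm D.cc).dir_sec hu
  lin0 := dir_lin _ _ _
  lin1 := dir_lin _ _ _
  adj _ _ hu hw := integral_dir D.cc D.lc D.riem D.skA D.skρ hu.1 hw.1
    (HasCompactSupport.of_compactSpace _)
  w0 := D.weitz G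
  w1 := D.weitz (G.symm D.cc)
  loc0 := dir_loc _ _ _
  loc1 := dir_loc _ _ _
  rk x := ((D.kp x).gr (ho x) trL_comm (G.gp D.cc x) rfl rfl).1
  trQ x := by
    rw [wK, smul_mul_assoc, smul_mul_assoc, map_smul, map_smul,
      ((D.kp x).gr (ho x) trL_comm (G.gp D.cc x) rfl rfl).2.1]

theorem Dm.hd_eq (D : Dm F Γ p ρ A) (G : Gr F p ρ A p₀ p₁) {x : M}
    (ho : Ori (fun a b => F.P a b x) fun a b c d => o a b c d x) :
    hd I F.e F.c A p₀ (wK I F.e F.c ρ A) x - hd I F.e F.c A p₁ (wK I F.e F.c ρ A) x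
      = dens (fun a b c d => o a b c d x)
          (-(omC (fun a b c d => o a b c d x) (fun a => ρ a x) * (p₀ x - p₁ x)))
          (fun a b => curv I F.e F.c A a b x) fun a b k l => Rm I F.e F.c Γ a b k l x := by
  have h := ((D.kp x).gr ho trL_comm (G.gp D.cc x) rfl rfl).2.2
  simp only [hd, dens, cw, wK, smul_mul_assoc, mul_smul_comm, map_smul, smul_eq_mul]
  linear_combination (1 / (768 * Real.pi ^ 2)) * h

variable [I.Boundaryless]

/-- **the index theorem** for a graded Clifford module -/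
theorem index_gr (D : Dm F Γ p ρ A) (G : Gr F p ρ A p₀ p₁)
    (ho : ∀ x, Ori (fun a b => F.P a b x) fun a b c d => o a b c d x) :
    FiniteDimensional ℝ (K F ρ A p₀) ∧ FiniteDimensional ℝ (K F ρ A p₁) ∧
      (Module.finrank ℝ (K F ρ A p₀) : ℝ) - Module.finrank ℝ (K F ρ A p₁)
        = ∫ x, dens (fun a b c d => o a b c d x)
          (-(omC (fun a b c d => o a b c d x) (fun a => ρ a x) * (p₀ x - p₁ x)))
          (fun a b => curv I F.e F.c A a b x) (fun a b k l => Rm I F.e F.c Γ a b k l x) ∂F.μ := by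
  obtain ⟨d, d', h1, h2, h3⟩ := index_all D.dim F D.vol (D.pr2 G ho)
  obtain ⟨h4, h5⟩ := h1.finrank (K := K F ρ A p₀) fun u => and_assoc.symm
  obtain ⟨h6, h7⟩ := h2.finrank (K := K F ρ A p₁) fun u => and_assoc.symm
  refine ⟨h4, h6, ?_⟩
  rw [h5, h7, h3]
  simp only [D.hd_eq G (ho _)]

omit [BorelSpace M] [T2Space M] [CompactSpace M] [I.Boundaryless]

/-! ### the chirality -/

/-- the Clifford volume element as a field -/
def omF (o : ι → ι → ι → ι → M → ℝ) (ρ : ι → M → V →L[ℝ] V) (x : M) : V →L[ℝ] V :=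
  omC (fun a b c d => o a b c d x) fun a => ρ a x

theorem sm_omF (so : ∀ a b c d, Sm I (o a b c d)) (sρ : ∀ a x, SA I (ρ a) x) : Sm I (omF o ρ) :=
  fun x => SA.smul contMDiffAt_const (SA.sum _ fun a _ => SA.sum _ fun b _ => SA.sum _ fun c _ =>
    SA.sum _ fun d _ => SA.smul (so a b c d x) ((((sρ a x).mul (sρ b x)).mul (sρ c x)).mul (sρ d x)))

variable (ho : ∀ x, Ori (fun a b => F.P a b x) fun a b c d => o a b c d x)
include ho

theorem omF_sq (C : CC I F.e F.P Γ p ρ A) (x : M) : omF o ρ x * omF o ρ x = p x :=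
  (ho x).om_om (C.cl x)

theorem omF_rho (C : CC I F.e F.P Γ p ρ A) (a : ι) (x : M) :
    omF o ρ x * ρ a x = -(ρ a x * omF o ρ x) := (ho x).om_rho (C.cl x) a

theorem omF_par (C : CC I F.e F.P Γ p ρ A) (so : ∀ a b c d, Sm I (o a b c d)) (a : ι) (x : M) :
    nabE I F.e A a (omF o ρ) x = 0 :=
  C.par_of_anti (sm_omF so C.sρ x) (Eventually.of_forall fun y b => omF_rho ho C b y)
    (Eventually.of_forall (omF_sq ho C)) (Eventually.of_forall fun y => p_omC (C.cl y))
    (fun _ hT => omC_comm (anti2 hT)) a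

theorem omF_sym (D : Dm F Γ p ρ A) (x : M) (v w : V) : ⟪omF o ρ x v, w⟫_ℝ = ⟪v, omF o ρ x w⟫_ℝ := by
  have := FiniteDimensional.complete ℝ V
  exact sym_iff.2 ((ho x).star_om (D.cc.cl x) fun a => skew_iff.1 (D.skρ a x)) v w

theorem p_sym (D : Dm F Γ p ρ A) (x : M) (v w : V) : ⟪p x v, w⟫_ℝ = ⟪v, p x w⟫_ℝ := by
  rw [← omF_sq ho D.cc]
  exact (omF_sym ho D x _ _).trans (omF_sym ho D x _ _)

/-- the grading by the chirality -/
theorem gr_om (D : Dm F Γ p ρ A) (so : ∀ a b c d, Sm I (o a b c d)) :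
    Gr F p ρ A (fun x => (1 / 2 : ℝ) • (p x - omF o ρ x)) fun x => (1 / 2 : ℝ) • (p x + omF o ρ x) := by
  have h1 := omF_sq ho D.cc
  have h2 : ∀ x, p x * omF o ρ x = omF o ρ x := fun x => p_omC (D.cc.cl x)
  have h3 : ∀ x, omF o ρ x * p x = omF o ρ x := fun x => omC_p (D.cc.cl x)
  have h4 : ∀ x, p x * p x = p x := fun x => (ho x).p_p (D.cc.cl x)
  have h5 : ∀ x, SA I (fun x => p x - omF o ρ x) x := fun x =>
    (D.cc.sp x).sub (sm_omF so D.cc.sρ x)
  exact
    { s0 := fun x => SA.smul contMDiffAt_const (h5 x)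
      sym0 := fun x v w => by
        simp only [smul_apply, sub_apply, real_inner_smul_left, real_inner_smul_right, inner_sub_left,
          inner_sub_right, p_sym ho D x v w, omF_sym ho D x v w]
      sym1 := fun x v w => by
        simp only [smul_apply, add_apply, real_inner_smul_left, real_inner_smul_right, inner_add_left,
          inner_add_right, p_sym ho D x v w, omF_sym ho D x v w]
      id0 := fun x => by
        simp only [smul_mul_smul_comm, mul_sub, sub_mul, h1, h2, h3, h4]; module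
      id1 := fun x => by
        simp only [smul_mul_smul_comm, mul_add, add_mul, h1, h2, h3, h4]; module
      add := fun x => by module
      o01 := fun x => by
        simp only [smul_mul_smul_comm, mul_add, sub_mul, h1, h2, h3, h4]; module
      sw := fun a x => by
        rw [mul_smul_comm, smul_mul_assoc, mul_sub, add_mul, omF_rho ho D.cc, (D.cc.cl x).pl,
          (D.cc.cl x).pr, sub_eq_add_neg]
      par0 := fun a x => by
        rw [nabE_smul a (f := fun _ => (1 / 2 : ℝ)) contMDiffAt_const (h5 x),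
          nabE_sub a (D.cc.sp x) (sm_omF so D.cc.sρ x), omF_par ho D.cc so,
          show nabE I F.e A a p x = 0 from D.cc.par a x, dv_const]
        simp }

/-- **the index theorem** -/
theorem index_main [I.Boundaryless] [BorelSpace M] [T2Space M] [CompactSpace M] (D : Dm F Γ p ρ A)
    (so : ∀ a b c d, Sm I (o a b c d)) :
    FiniteDimensional ℝ (K F ρ A fun x => (1 / 2 : ℝ) • (p x - omF o ρ x)) ∧
    FiniteDimensional ℝ (K F ρ A fun x => (1 / 2 : ℝ) • (p x + omF o ρ x)) ∧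
      (Module.finrank ℝ (K F ρ A fun x => (1 / 2 : ℝ) • (p x - omF o ρ x)) : ℝ)
        - Module.finrank ℝ (K F ρ A fun x => (1 / 2 : ℝ) • (p x + omF o ρ x))
        = ∫ x, dens (fun a b c d => o a b c d x) (p x)
          (fun a b => curv I F.e F.c A a b x) (fun a b k l => Rm I F.e F.c Γ a b k l x) ∂F.μ := by
  have h := index_gr D (gr_om ho D so) ho
  have e : ∀ x, -(omC (fun a b c d => o a b c d x) (fun a => ρ a x)
      * ((1 / 2 : ℝ) • (p x - omF o ρ x) - (1 / 2 : ℝ) • (p x + omF o ρ x))) = p x := fun x => by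
    rw [show (1 / 2 : ℝ) • (p x - omF o ρ x) - (1 / 2 : ℝ) • (p x + omF o ρ x) = -omF o ρ x by module,
      mul_neg, neg_neg]
    exact omF_sq ho D.cc x
  simpa only [e] using h

omit ho

/-- restriction to a parallel projector `s ≤ p` which commutes with Clifford multiplication -/
theorem Dm.sub (D : Dm F Γ p ρ A) {s : M → V →L[ℝ] V} (hs : Sm I s)
    (hsym : ∀ x v w, ⟪s x v, w⟫_ℝ = ⟪v, s x w⟫_ℝ) (hi : ∀ x, s x * s x = s x)
    (hp : ∀ x, p x * s x = s x) (hρ : ∀ a x, s x * ρ a x = ρ a x * s x)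
    (hpar : ∀ a x, nabE I F.e A a s x = 0) : Dm F Γ s (fun a x => ρ a x * s x) A where
  dim := D.dim
  vol := D.vol
  riem := D.riem
  lc := D.lc
  cc :=
    { toCon := D.cc.toCon
      sp := hs
      sρ := fun a x => (D.cc.sρ a x).mul (hs x)
      cl := fun x =>
        { rel := fun a b => by
            have h : ∀ a b, ρ a x * s x * (ρ b x * s x) = ρ a x * ρ b x * s x := fun a b => by
              rw [mul_assoc, ← mul_assoc (s x), hρ, mul_assoc, hi, mul_assoc]
            rw [h, h, ← add_mul, (D.cc.cl x).rel, smul_mul_assoc, hp]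
          pl := fun a => by rw [← mul_assoc, hρ, mul_assoc, hi]
          pr := fun a => by rw [mul_assoc, hi]
          proj := fun a => by
            simp only [← smul_mul_assoc, ← Finset.sum_mul, (D.cc.cl x).proj] }
      par := hpar
      comp := fun a b x => by
        have h := nabE_mul (e := F.e) (A := A) a (D.cc.sρ b x) (hs x)
        rw [hpar, mul_zero, add_zero, show nabE I F.e A a (ρ b) x = _ from D.cc.comp a b x] at h
        simp only [Finset.sum_mul, smul_mul_assoc] at h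
        exact h }
  skA := D.skA
  skρ a x v w := by
    change ⟪ρ a x (s x v), w⟫_ℝ = -⟪v, (ρ a x * s x) w⟫_ℝ
    rw [D.skρ, hsym, ← hρ]
    rfl

end Crest.Agent.X212.Ind95
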