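import Crest.Agent.X212.Wz78.Int

/-!
# X212 / IND (helper95), part 2: change of the model

`Rc I L M` is `M` with the charts `L ∘ extChartAt I x` (model `F`).  Frames are transported (`rce`),
the derivatives `dv` and smoothness of functions are unchanged.  `F4 e P c μ` is the data of a frame on a
manifold modelled on `ℝ⁴` with its Riemannian measure; `f4_of_fr` produces it from `An.Fr`.
-/

set_option autoImplicit false
set_option linter.unusedSectionVars false
noncomputable section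
open scoped Manifold ContDiff Topology InnerProductSpace
open MeasureTheory Set Function Filter

namespace Crest.Agent.X212.Ind95

open Crest.Agent.X212.Sob92 Crest.Agent.X212.Wz78 Crest.Agent.X212.An

section rc

variable {E : Type} [NormedAddCommGroup E] [NormedSpace ℝ E]
  {HM : Type} [TopologicalSpace HM] {I : ModelWithCorners ℝ E HM} [I.Boundaryless]
  {F : Type} [NormedAddCommGroup F] [NormedSpace ℝ F] {L : E ≃L[ℝ] F}
  {M : Type} [TopologicalSpace M] [ChartedSpace HM M] [IsManifold I ∞ M]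
  {N : Type*} [NormedAddCommGroup N] [NormedSpace ℝ N]

/-- `M` with another model -/
@[nolint unusedArguments]
def Rc (_I : ModelWithCorners ℝ E HM) (_L : E ≃L[ℝ] F) (M : Type) : Type := M

instance : TopologicalSpace (Rc I L M) := ‹TopologicalSpace M›
instance [h : MeasurableSpace M] : MeasurableSpace (Rc I L M) := h
instance [MeasurableSpace M] [h : BorelSpace M] : BorelSpace (Rc I L M) := h
instance [h : T2Space M] : T2Space (Rc I L M) := h
instance [h : CompactSpace M] : CompactSpace (Rc I L M) := h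
instance [h : ConnectedSpace M] : ConnectedSpace (Rc I L M) := h

variable (I L) in
/-- the new charts -/
def rch (x : M) : OpenPartialHomeomorph (Rc I L M) F :=
  (chartAt HM x).transHomeomorph (I.toHomeomorph.trans L.toHomeomorph)

theorem rch_apply (x y : M) : rch I L x y = L (extChartAt I x y) := rfl

theorem rch_symm (x : M) (w : F) : (rch I L x).symm w = (extChartAt I x).symm (L.symm w) := rfl

theorem rch_source (x : M) : (rch I L x).source = (extChartAt I x).source := by
  rw [extChartAt_source]; rfl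

instance : ChartedSpace F (Rc I L M) where
  atlas := range (rch I L)
  chartAt x := rch I L x
  mem_chart_source x := mem_chart_source HM (show M from x)
  chart_mem_atlas x := ⟨x, rfl⟩

theorem chartAt_rc (x : Rc I L M) : chartAt F x = rch I L (show M from x) := rfl

instance : IsManifold 𝓘(ℝ, F) ∞ (Rc I L M) := by
  refine isManifold_of_contDiffOn _ _ _ ?_
  rintro _ _ ⟨x, rfl⟩ ⟨y, rfl⟩
  have h := contDiffOn_ext_coord_change (I := I) (n := ∞) y x
  have h2 : ContDiffOn ℝ ∞ (fun w => L ((extChartAt I y ∘ (extChartAt I x).symm) (L.symm w)))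
      (L.symm ⁻¹' ((extChartAt I x).symm ≫ extChartAt I y).source) :=
    L.contDiff.comp_contDiffOn (h.comp L.symm.contDiff.contDiffOn fun _ hw => hw)
  refine h2.mono ?_ |>.congr fun w _ => rfl
  intro w hw
  simp only [modelWithCornersSelf_coe_symm, preimage_id_eq, id_eq, modelWithCornersSelf_coe, range_id,
    inter_univ, OpenPartialHomeomorph.trans_source, OpenPartialHomeomorph.symm_source, mem_inter_iff,
    mem_preimage] at hw
  obtain ⟨h1, h3⟩ := hw
  refine ⟨?_, ?_⟩
  · have h4 := (rch I L x).map_target h1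
    have h5 := (rch I L x).right_inv h1
    rw [rch_source] at h4
    have h6 : L.symm w = extChartAt I x ((rch I L x).symm w) := by
      nth_rewrite 1 [← h5]; exact L.symm_apply_apply _
    change L.symm w ∈ (extChartAt I x).target
    rw [h6]
    exact (extChartAt I x).map_source h4
  · rw [rch_source] at h3
    exact h3

variable (I L) in
/-- the identity map -/
def toRc (x : M) : Rc I L M := x

variable (I L) in
/-- the identity map -/
def ofRc (x : Rc I L M) : M := x

variable (I L) in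
/-- a function on `M` as a function on `Rc I L M` -/
def up {α : Type*} (u : M → α) : Rc I L M → α := u

theorem sm_toRc : ContMDiff I 𝓘(ℝ, F) ∞ (toRc I L : M → Rc I L M) := by
  intro x
  rw [contMDiffAt_iff_target]
  refine ⟨continuousAt_id, ?_⟩
  exact L.contDiff.contMDiff.contMDiffAt.comp x (contMDiffAt_extChartAt (I := I) (x := x))

theorem sm_ofRc : ContMDiff 𝓘(ℝ, F) I ∞ (ofRc I L : Rc I L M → M) := by
  intro x
  rw [contMDiffAt_iff_target]
  refine ⟨continuousAt_id, ?_⟩
  have h := L.symm.contDiff.contMDiff.contMDiffAt.comp x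
    (contMDiffAt_extChartAt (I := 𝓘(ℝ, F)) (n := ∞) (x := x))
  refine h.congr_of_eventuallyEq (Eventually.of_forall fun y => ?_)
  exact (L.symm_apply_apply _).symm

theorem sa_rc {u : M → N} {x : M} {n : WithTop ℕ∞} (hn : n ≤ ∞) :
    ContMDiffAt 𝓘(ℝ, F) 𝓘(ℝ, N) n (up I L u) (toRc I L x)
      ↔ ContMDiffAt I 𝓘(ℝ, N) n u x :=
  ⟨fun h => h.comp x ((sm_toRc x).of_le hn),
    fun h => ContMDiffAt.comp (f := ofRc I L) (toRc I L x) h ((sm_ofRc _).of_le hn)⟩

theorem md_rc {u : M → N} {x : M} :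
    MDifferentiableAt 𝓘(ℝ, F) 𝓘(ℝ, N) (up I L u) (toRc I L x)
      ↔ MDifferentiableAt I 𝓘(ℝ, N) u x :=
  ⟨fun h => h.comp x ((sm_toRc x).mdifferentiableAt (by simp)),
    fun h => MDifferentiableAt.comp (f := ofRc I L) (toRc I L x) h
      ((sm_ofRc _).mdifferentiableAt (by simp))⟩

variable (L) in
/-- transport of a vector field -/
def rce (e : (x : M) → TangentSpace I x) (x : Rc I L M) : TangentSpace 𝓘(ℝ, F) x :=
  mfderiv I 𝓘(ℝ, F) (toRc I L) (ofRc I L x) (e (ofRc I L x))

theorem dv_rc (e : (x : M) → TangentSpace I x) (u : M → N) :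
    dv 𝓘(ℝ, F) (rce L e) (up I L u) = up I L (dv I e u) := by
  refine funext fun (x : M) => ?_
  change dv 𝓘(ℝ, F) (rce L e) (up I L u) (toRc I L x) = dv I e u x
  by_cases h : MDifferentiableAt I 𝓘(ℝ, N) u x
  · have h1 := mfderiv_comp (I := I) (I' := 𝓘(ℝ, F)) (I'' := 𝓘(ℝ, N)) (f := toRc I L)
      (g := (up I L u)) x (md_rc.2 h) ((sm_toRc x).mdifferentiableAt (by simp))
    have h2 : dv I e u x
        = mfderiv I 𝓘(ℝ, N) ((up I L u) ∘ toRc I L) x (e x) := rfl
    rw [h2, h1]
    rfl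
  · have h1 : mfderiv I 𝓘(ℝ, N) u x = 0 := mfderiv_zero_of_not_mdifferentiableAt h
    have h2 : mfderiv 𝓘(ℝ, F) 𝓘(ℝ, N) (up I L u) (toRc I L x) = 0 :=
      mfderiv_zero_of_not_mdifferentiableAt fun h' => h (md_rc.1 h')
    have h3 : dv I e u x = 0 := by
      unfold dv; rw [h1]; rfl
    rw [h3]
    change mfderiv 𝓘(ℝ, F) 𝓘(ℝ, N) (up I L u) (toRc I L x) _ = 0
    rw [h2]; rfl

theorem sm_rce {e : (x : M) → TangentSpace I x}
    (he : ContMDiff I I.tangent ∞ fun x => (⟨x, e x⟩ : TangentBundle I M)) :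
    ContMDiff 𝓘(ℝ, F) 𝓘(ℝ, F).tangent ∞
      fun x => (⟨x, rce L e x⟩ : TangentBundle 𝓘(ℝ, F) (Rc I L M)) :=
  ((sm_toRc (I := I) (L := L) (M := M)).contMDiff_tangentMap (m := ∞) (by simp)).comp
    (he.comp sm_ofRc)

theorem mf_to_of (x : M) (v : TangentSpace 𝓘(ℝ, F) (toRc I L x)) :
    mfderiv I 𝓘(ℝ, F) (toRc I L) x (mfderiv 𝓘(ℝ, F) I (ofRc I L) (toRc I L x) v) = v := by
  have h1 := mfderiv_comp (I := 𝓘(ℝ, F)) (I' := I) (I'' := 𝓘(ℝ, F)) (f := ofRc I L)
    (g := (toRc I L : M → Rc I L M)) (toRc I L x) ((sm_toRc x).mdifferentiableAt (by simp))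
    ((sm_ofRc _).mdifferentiableAt (by simp))
  have h2 : (toRc I L ∘ ofRc I L : Rc I L M → Rc I L M) = id := rfl
  rw [h2, mfderiv_id] at h1
  exact (congrArg (fun T => T v) h1).symm

theorem mf_of_to (x : M) (v : TangentSpace I x) :
    mfderiv 𝓘(ℝ, F) I (ofRc I L) (toRc I L x) (mfderiv I 𝓘(ℝ, F) (toRc I L) x v) = v := by
  have h1 := mfderiv_comp (I := I) (I' := 𝓘(ℝ, F)) (I'' := I) (g := ofRc I L)
    (f := (toRc I L : M → Rc I L M)) x ((sm_ofRc _).mdifferentiableAt (by simp))
    ((sm_toRc x).mdifferentiableAt (by simp))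
  have h2 : (ofRc I L ∘ toRc I L : M → M) = id := rfl
  rw [h2, mfderiv_id] at h1
  exact (congrArg (fun T => T v) h1).symm

end rc

/-- Euclidean four-space -/
abbrev R4 : Type := EuclideanSpace ℝ (Fin 4)

section f4

variable {N : Type} [TopologicalSpace N] [ChartedSpace R4 N] [IsManifold (𝓡 4) ∞ N]
  [MeasurableSpace N] {ι : Type} [Fintype ι]

/-- the cometric in the chart at `x₀` -/
def gr4 (e : ι → (x : N) → TangentSpace (𝓡 4) x) (x₀ x : N) : Matrix (Fin 4) (Fin 4) ℝ :=
  Matrix.of fun i j => ∑ a, dv (𝓡 4) (e a) (chartAt R4 x₀) x i * dv (𝓡 4) (e a) (chartAt R4 x₀) x j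

/-- a frame with its Riemannian measure -/
structure F4 (e : ι → (x : N) → TangentSpace (𝓡 4) x) (P : ι → ι → N → ℝ)
    (c : ι → ι → ι → N → ℝ) (μ : Measure N) : Prop where
  frm : Frm (𝓡 4) e P c
  span : ∀ x, Submodule.span ℝ (range fun a => e a x) = ⊤
  ker : ∀ x (ξ : ι → ℝ), ∑ b, ξ b • e b x = 0 → ∀ a, ∑ b, P a b x * ξ b = 0
  vol : ∀ x₀, ∃ O, IsOpen O ∧ x₀ ∈ O ∧ O ⊆ (chartAt R4 x₀).source ∧ ∀ s, MeasurableSet s → s ⊆ O →
    μ s = ∫⁻ y in chartAt R4 x₀ '' s,
      ENNReal.ofReal (√(gr4 e x₀ ((chartAt R4 x₀).symm y)).det)⁻¹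

end f4

section fr

variable {E : Type} [NormedAddCommGroup E] [NormedSpace ℝ E] [FiniteDimensional ℝ E]
  [MeasurableSpace E] [BorelSpace E]
  {HM : Type} [TopologicalSpace HM] {I : ModelWithCorners ℝ E HM} [I.Boundaryless]
  {M : Type} [TopologicalSpace M] [ChartedSpace HM M] [IsManifold I ∞ M]
  [MeasurableSpace M] [BorelSpace M] {ι : Type} [Fintype ι]

/-- coordinates in the reference basis -/
def L4 (hE : Module.finrank ℝ E = 4) : E ≃L[ℝ] R4 :=
  (((Module.finBasis ℝ E).reindex (finCongr hE)).equiv (EuclideanSpace.basisFun (Fin 4) ℝ).toBasis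
    (Equiv.refl _)).toContinuousLinearEquiv

theorem L4_apply (hE : Module.finrank ℝ E = 4) (v : E) (i : Fin 4) :
    L4 hE v i = (Module.finBasis ℝ E).repr v ((finCongr hE).symm i) := by
  have h1 : L4 hE v i = (EuclideanSpace.basisFun (Fin 4) ℝ).toBasis.repr (L4 hE v) i := by simp
  rw [h1]
  have h2 : (EuclideanSpace.basisFun (Fin 4) ℝ).toBasis
      = ((Module.finBasis ℝ E).reindex (finCongr hE)).map (L4 hE).toLinearEquiv := by
    ext j : 1
    simp [L4]
  rw [h2]
  simp

theorem map_L4 (hE : Module.finrank ℝ E = 4) : (leb E).map (L4 hE) = volume := by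
  have h2 : (EuclideanSpace.basisFun (Fin 4) ℝ).toBasis
      = ((Module.finBasis ℝ E).reindex (finCongr hE)).map (L4 hE).toLinearEquiv := by
    ext j : 1
    simp [L4]
  rw [← (EuclideanSpace.basisFun (Fin 4) ℝ).addHaar_eq_volume, h2, ← Module.Basis.map_addHaar,
    Module.Basis.addHaar_reindex, leb]

theorem ms_img (x : M) {s : Set M} (hs : MeasurableSet s) (h : s ⊆ (extChartAt I x).source) :
    MeasurableSet (extChartAt I x '' s) := by
  have h1 : extChartAt I x '' s = (extChartAt I x).target ∩ (extChartAt I x).symm ⁻¹' s := by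
    rw [← (extChartAt I x).image_source_inter_eq', inter_eq_right.2 h]
  have ht : MeasurableSet (extChartAt I x).target := (isOpen_extChartAt_target x).measurableSet
  have h2 : Measurable ((extChartAt I x).target.domRestrict (extChartAt I x).symm) :=
    (continuousOn_extChartAt_symm x).domRestrict.measurable
  have h3 := ht.subtype_image (h2 hs)
  rw [h1]
  convert h3 using 1
  ext y
  simp only [mem_inter_iff, mem_preimage, mem_image, Subtype.exists, exists_and_right, exists_eq_right]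
  exact ⟨fun ⟨a, b⟩ => ⟨a, b⟩, fun ⟨a, b⟩ => ⟨a, b⟩⟩

theorem rce_sum (L : E ≃L[ℝ] R4) (e : ι → (x : M) → TangentSpace I x) (ξ : ι → ℝ) (x : M) :
    ∑ b, ξ b • rce L (e b) (toRc I L x) = mfderiv I (𝓡 4) (toRc I L) x (∑ b, ξ b • e b x) := by
  rw [map_sum]
  simp only [map_smul]
  rfl

theorem span_rc (L : E ≃L[ℝ] R4) (e : ι → (x : M) → TangentSpace I x) (x : M)
    (h : Submodule.span ℝ (range fun a => e a x) = ⊤) :
    Submodule.span ℝ (range fun a => rce L (e a) (toRc I L x)) = ⊤ := by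
  rw [eq_top_iff]
  intro v _
  obtain ⟨w, hw⟩ : ∃ w : TangentSpace I x, mfderiv I (𝓡 4) (toRc I L) x w = v := ⟨_, mf_to_of x v⟩
  have h1 : w ∈ Submodule.span ℝ (range fun a => e a x) := by rw [h]; trivial
  obtain ⟨ξ, hξ⟩ := (Submodule.mem_span_range_iff_exists_fun ℝ).1 h1
  refine (Submodule.mem_span_range_iff_exists_fun ℝ).2 ⟨ξ, ?_⟩
  rw [rce_sum, hξ, hw]

theorem vol_rc (hE : Module.finrank ℝ E = 4) (F : Fr I M ι) (x₀ : M) {O : Set M}
    (h : HasDens I F.μ x₀ O fun y => (√(F.gram x₀ ((extChartAt I x₀).symm y)).det)⁻¹)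
    {s : Set M} (hs : MeasurableSet s) (hsO : s ⊆ O) :
    F.μ s = ∫⁻ y in L4 hE '' (extChartAt I x₀ '' s), ENNReal.ofReal
      (√(gr4 (fun a => rce (L4 hE) (F.e a)) (toRc I (L4 hE) x₀)
        (toRc I (L4 hE) ((extChartAt I x₀).symm ((L4 hE).symm y)))).det)⁻¹ := by
  obtain ⟨hO, hx, hOs, hμ⟩ := h
  have hm := ms_img (I := I) x₀ hs (hsO.trans hOs)
  have hae : AEMeasurable (extChartAt I x₀) (F.μ.restrict O) :=
    ((continuousOn_extChartAt _).mono hOs).aemeasurable hO.measurableSet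
  have h1 := congrArg (fun ν : Measure E => ν (extChartAt I x₀ '' s)) hμ
  beta_reduce at h1
  rw [Measure.map_apply_of_aemeasurable hae hm, Measure.restrict_apply' hO.measurableSet,
    withDensity_apply _ hm, Measure.restrict_restrict hm,
    inter_eq_left.2 (image_mono hsO)] at h1
  have h2 : extChartAt I x₀ ⁻¹' (extChartAt I x₀ '' s) ∩ O = s := by
    ext y
    refine ⟨fun ⟨⟨w, hw, hwy⟩, hy⟩ => ?_, fun hy => ⟨⟨y, hy, rfl⟩, hsO hy⟩⟩
    rwa [← (extChartAt I x₀).injOn (hOs (hsO hw)) (hOs hy) hwy]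
  rw [h2] at h1
  refine h1.trans ?_
  have hme : MeasurableEmbedding (L4 hE) := (L4 hE).toHomeomorph.measurableEmbedding
  rw [← map_L4 hE, hme.restrict_map, hme.lintegral_map, preimage_image_eq _ (L4 hE).injective]
  refine setLIntegral_congr_fun hm fun y hy => ?_
  obtain ⟨w, hw, rfl⟩ := hy
  have hws := hOs (hsO hw)
  beta_reduce
  rw [(L4 hE).symm_apply_apply, (extChartAt I _).left_inv hws]
  have h5 : ∀ a, dv (𝓡 4) (rce (L4 hE) (F.e a)) (chartAt R4 (toRc I (L4 hE) x₀)) (toRc I (L4 hE) w)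
      = L4 hE (F.D a (extChartAt I x₀) w) := fun a => by
    have h6 := congrFun (dv_rc (L := L4 hE) (F.e a)
      (fun y => (L4 hE : E →L[ℝ] R4) (extChartAt I x₀ y))) (toRc I (L4 hE) w)
    refine h6.trans ?_
    refine dv_clm (L4 hE : E →L[ℝ] R4) ?_
    rw [extChartAt_source] at hws
    exact mdifferentiableAt_extChartAt hws
  have h7 : gr4 (fun a => rce (L4 hE) (F.e a)) (toRc I (L4 hE) x₀) (toRc I (L4 hE) w)
      = (F.gram x₀ w).submatrix (finCongr hE).symm (finCongr hE).symm := by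
    ext i j
    simp only [gr4, Matrix.of_apply, h5, L4_apply, Pre.gram, Matrix.submatrix_apply]
  rw [h7, Matrix.det_submatrix_equiv_self]

theorem f4_of_fr (hE : Module.finrank ℝ E = 4) (F : Fr I M ι) (hv : F.IsVol) :
    F4 (N := Rc I (L4 hE) M) (fun a => rce (L4 hE) (F.e a)) F.P F.c F.μ where
  frm :=
    { se := fun a x => sm_rce (F.sm a) x
      sP := fun a b x => (sa_rc le_rfl).2 (F.P_sm a b x)
      sc := fun a b k x => (sa_rc le_rfl).2 (F.c_sm a b k x)
      pr := fun x => frPr F x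
      proj := fun a (x : M) =>
        (rce_sum (L4 hE) F.e (fun b => F.P a b x) x).trans (by rw [F.P_e]; rfl)
      br := fun a b (f : M → ℝ) (x : M) hf => by
        have h := (frm F).br a b f x ((sa_rc le_rfl).1 hf)
        have e1 := fun k => dv_rc (L := L4 hE) (F.e k) f
        have e2 := fun k l => dv_rc (L := L4 hE) (F.e k) (dv I (F.e l) f)
        change dv (𝓡 4) _ (dv (𝓡 4) _ (up I (L4 hE) f)) _ - dv (𝓡 4) _ (dv (𝓡 4) _ (up I (L4 hE) f)) _
          = ∑ k, _ * dv (𝓡 4) _ (up I (L4 hE) f) _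
        simp only [e1, e2]
        exact h }
  span := fun (x : M) => span_rc (L4 hE) F.e x (F.span x)
  ker := fun (x : M) ξ h => by
    refine F.P_ker x ξ ?_
    have h1 := (rce_sum (L4 hE) F.e ξ x).symm.trans h
    have h2 := mf_of_to (L := L4 hE) x (∑ b, ξ b • F.e b x)
    rw [h1] at h2
    exact h2.symm.trans (map_zero _)
  vol := fun (x₀ : M) => by
    obtain ⟨O, h⟩ := hv x₀
    refine ⟨O, h.1, h.2.1, ?_, fun (s : Set M) hs hsO => ?_⟩
    · exact h.2.2.1.trans (rch_source (L := L4 hE) x₀).symm.subset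
    · have h1 := vol_rc hE F x₀ h (s := s) hs hsO
      rw [image_image] at h1
      exact h1

end fr

end Crest.Agent.X212.Ind95
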