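import Crest.Agent.X212.Ind95.Defs
import Crest.Agent.X212.Ind95.Rc
import Crest.Agent.R249.DenH_714

/-!
# X212 / IND (helper95), part 5: from the frame format to the data of R249

On a Riemannian manifold with a Parseval frame `e`: the measure (`mu_eq`), the `Bun`/`Dat` of a bundle
(`bun`, `dat`), the energy density (`ed_dat`) and the heat density (`dn_dat`).
-/

set_option autoImplicit false
set_option maxSynthPendingDepth 3
set_option linter.unusedSectionVars false
noncomputable section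
open scoped Manifold ContDiff Topology InnerProductSpace Bundle ENNReal
open MeasureTheory Set Function Filter Bundle

namespace Crest.Agent.X212.Ind95

open Crest.GeometryTopology.CoordMetric Crest.GeometryTopology.ChartCurvature
open Crest.Agent.X212.Sob92 Crest.Agent.X212.Wz78
open Crest.Agent.R202.Tens (bil bil_apply)
open Crest.Agent.R249.Vf281 Crest.Agent.R249.Tv57 Crest.Agent.R249.Tz805
open Crest.Agent.R247.Bo84 (dCh dSy dCh_dSy inner_eq_bil mgrad inner_mgrad)
open Crest.Agent.R249.HK9_714 (dn den Qc Pc Fc rd cd_cf sum_cf_toF)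
open Crest.Agent.R247.Frd657 (cf)

variable {N : Type} [MetricSpace N] [ChartedSpace R4 N] [IsManifold (𝓡 4) ∞ N]
  [RiemannianBundle (fun p : N => TangentSpace (𝓡 4) p)]
  [IsContMDiffRiemannianBundle (𝓡 4) ∞ R4 (fun p : N => TangentSpace (𝓡 4) p)]
  {ι : Type} [Fintype ι] {e : ι → (x : N) → TangentSpace (𝓡 4) x}
  {P : ι → ι → N → ℝ} {c : ι → ι → ι → N → ℝ}

/-- Parseval frames -/
def Pars (e : ι → (x : N) → TangentSpace (𝓡 4) x) : Prop :=
  ∀ (x : N) (v : TangentSpace (𝓡 4) x), ∑ a, (inner ℝ (e a x) v : ℝ) • e a x = v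

theorem Pars.inner (h : Pars e) {x : N} (v w : TangentSpace (𝓡 4) x) :
    (inner ℝ v w : ℝ) = ∑ a, (inner ℝ v (e a x) : ℝ) * inner ℝ w (e a x) := by
  nth_rewrite 1 [← h x w]
  rw [inner_sum]
  exact Finset.sum_congr rfl fun a _ => by rw [real_inner_smul_right, real_inner_comm w, mul_comm]

theorem Pars.zero (h : Pars e) {x : N} {v : TangentSpace (𝓡 4) x}
    (hv : ∀ a, (Inner.inner ℝ v (e a x) : ℝ) = 0) : v = 0 := by
  rw [← h x v]
  exact Finset.sum_eq_zero fun a _ => by rw [real_inner_comm, hv, zero_smul]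

theorem Pars.eq_P (h : Pars e) (F : Frm (𝓡 4) e P c)
    (hk : ∀ x (ξ : ι → ℝ), ∑ b, ξ b • e b x = 0 → ∀ a, ∑ b, P a b x * ξ b = 0) (a b : ι) (x : N) :
    (Inner.inner ℝ (e a x) (e b x) : ℝ) = P a b x := by
  have h1 : ∑ d, ((Inner.inner ℝ (e d x) (e b x) : ℝ) - P b d x) • e d x = 0 := by
    simp only [sub_smul, Finset.sum_sub_distrib, h x (e b x), F.proj b x, sub_self]
  have h2 := hk x _ h1 a
  simp only [mul_sub, Finset.sum_sub_distrib] at h2
  have h3 : ∑ d, P a d x * (Inner.inner ℝ (e d x) (e b x) : ℝ) = Inner.inner ℝ (e a x) (e b x) := by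
    nth_rewrite 1 [← F.proj a x]
    rw [sum_inner]
    exact Finset.sum_congr rfl fun d _ => (real_inner_smul_left _ _ _).symm
  have h4 : ∑ d, P a d x * P b d x = P a b x := by
    rw [← (F.pr x).idem a b]
    exact Finset.sum_congr rfl fun d _ => by rw [(F.pr x).symm b d]
  rw [h3, h4] at h2
  exact sub_eq_zero.1 h2

theorem sa_chart {x₀ x : N} (hx : x ∈ (chartAt R4 x₀).source) : SA (𝓡 4) (chartAt R4 x₀) x :=
  (contMDiffOn_chart (I := 𝓡 4) (n := ∞) x hx).contMDiffAt ((chartAt R4 x₀).open_source.mem_nhds hx)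

theorem vsm (F : Frm (𝓡 4) e P c) (a : ι) (z : N) : VSm 4 ∞ (e a) z := by
  have h1 : SA (𝓡 4) (dv (𝓡 4) (e a) (chartAt R4 z)) z := F.sD a (sa_chart (mem_chart_source R4 z))
  have h2 : ContMDiffAt (𝓡 4) (𝓡 4) ∞ (chartAt R4 z).symm (chartAt R4 z z) :=
    (contMDiffOn_chart_symm (I := 𝓡 4) (n := ∞) _ (mem_chart_target R4 z)).contMDiffAt
      ((chartAt R4 z).open_target.mem_nhds (mem_chart_target R4 z))
  have h3 : ContMDiffAt (𝓡 4) (𝓡 4) ∞ (dv (𝓡 4) (e a) (chartAt R4 z))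
      ((chartAt R4 z).symm (chartAt R4 z z)) := by
    rw [(chartAt R4 z).left_inv (mem_chart_source R4 z)]; exact h1
  exact (h3.comp _ h2).contDiffAt

theorem vsm_sum {J : Type*} (s : Finset J) {X : J → (x : N) → TangentSpace (𝓡 4) x} {z : N}
    (hX : ∀ i, VSm 4 ∞ (X i) z) : VSm 4 ∞ (fun q => ∑ i ∈ s, X i q) z := by
  have e1 : vCh 4 z (fun q => ∑ i ∈ s, X i q) = fun y => ∑ i ∈ s, vCh 4 z (X i) y :=
    funext fun y => map_sum (dCh (n := 4) z ((chartAt R4 z).symm y))
      (fun i => (show R4 from X i ((chartAt R4 z).symm y))) s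
  rw [VSm, e1]
  exact ContDiffAt.sum fun i _ => hX i

theorem Pars.gr4_eq (h : Pars e) {x₀ x : N} (hx : x ∈ (chartAt R4 x₀).source) :
    gr4 e x₀ x = (chartMetric 4 N x₀ (chartAt R4 x₀ x))⁻¹ := by
  symm
  refine Matrix.inv_eq_left_inv ?_
  ext i j
  obtain ⟨v, hv⟩ : ∃ v : TangentSpace (𝓡 4) x, dCh x₀ x v = EuclideanSpace.single j 1 := by
    have h1 := dCh_dSy (n := 4) x₀ ((chartAt R4 x₀).map_source hx) (EuclideanSpace.single j 1)
    rw [(chartAt R4 x₀).left_inv hx] at h1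
    exact ⟨_, h1⟩
  have h2 : ∑ a, (Inner.inner ℝ (e a x) v : ℝ) • dCh x₀ x (e a x) = EuclideanSpace.single j 1 := by
    rw [← hv]
    nth_rewrite 2 [← h x v]
    refine Eq.trans ?_ (map_sum (dCh (n := 4) x₀ x) _ Finset.univ).symm
    exact Finset.sum_congr rfl fun a _ => (map_smul (dCh (n := 4) x₀ x) _ _).symm
  have h4 := congrArg (fun w : R4 => w i) h2
  have h5 : ∀ a, (Inner.inner ℝ (e a x) v : ℝ)
      = ∑ m, chartMetric 4 N x₀ (chartAt R4 x₀ x) m j * dCh x₀ x (e a x) m := fun a => by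
    refine (inner_eq_bil x₀ hx (e a x) v).trans ?_
    rw [hv, bil_apply]
    refine Finset.sum_congr rfl fun m _ => ?_
    simp
  simp only [WithLp.ofLp_sum, WithLp.ofLp_smul, Finset.sum_apply, Pi.smul_apply, smul_eq_mul, h5] at h4
  rw [Matrix.mul_apply, Matrix.one_apply]
  have h6 : (EuclideanSpace.single j (1 : ℝ) : R4) i = if i = j then 1 else 0 := by
    simp
  rw [← h6, ← h4]
  simp only [gr4, Matrix.of_apply, Finset.sum_mul]
  rw [Finset.sum_comm]
  refine Finset.sum_congr rfl fun a _ => Finset.sum_congr rfl fun m _ => ?_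
  change dCh x₀ x (e a x) i * dCh x₀ x (e a x) m * _ = _
  ring

variable {V : Type} [NormedAddCommGroup V] [InnerProductSpace ℝ V] [FiniteDimensional ℝ V]
  {κ : Type} [Fintype κ] (b : OrthonormalBasis κ ℝ V)
  {A : ι → N → V →L[ℝ] V} {p Q : N → V →L[ℝ] V}

theorem sa_ent {T : N → V →L[ℝ] V} {x : N} (h : SA (𝓡 4) T x) (k l : κ) :
    SA (𝓡 4) (fun y => ent b k l (T y)) x := (ent b k l).contDiff.contMDiff.contMDiffAt.comp x h

theorem sm_ent {T : N → V →L[ℝ] V} (h : ∀ x, SA (𝓡 4) T x) (k l : κ) :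
    ContMDiff (𝓡 4) 𝓘(ℝ, ℝ) ∞ (fun y => ent b k l (T y)) := fun x => sa_ent b (h x) k l

/-- the connection form -/
def cW (e : ι → (x : N) → TangentSpace (𝓡 4) x) (A : ι → N → V →L[ℝ] V) (k l : κ) (z : N) :
    TangentSpace (𝓡 4) z := ∑ a, ent b k l (A a z) • e a z

theorem inner_cW (hP : ∀ a d x, (inner ℝ (e a x) (e d x) : ℝ) = P a d x) (H : Hb (𝓡 4) e P A p Q)
    (k l : κ) (a : ι) (z : N) : (inner ℝ (cW b e A k l z) (e a z) : ℝ) = ent b k l (A a z) := by
  rw [← H.proj a z, map_sum, cW, sum_inner]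
  refine Finset.sum_congr rfl fun d _ => ?_
  rw [real_inner_smul_left, real_inner_comm, hP, map_smul, smul_eq_mul, mul_comm]

theorem inner_mg (f : N → ℝ) (a : ι) (z : N) :
    (inner ℝ (mgrad 4 f z) (e a z) : ℝ) = dv (𝓡 4) (e a) f z := inner_mgrad f z (e a z)

/-- the bundle -/
def bun (h : Pars e) (F : Frm (𝓡 4) e P c) (hP : ∀ a d x, (inner ℝ (e a x) (e d x) : ℝ) = P a d x)
    (H : Hb (𝓡 4) e P A p Q) : Bun 4 N κ where
  W := cW b e A
  p k l z := ent b k l (p z)
  smW k l z := vsm_sum Finset.univ fun a => VSm.smul le_rfl (sa_ent b (H.sA a z) k l) (vsm F a z)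
  skew k l z := by
    rw [cW, cW, ← Finset.sum_neg_distrib]
    refine Finset.sum_congr rfl fun a _ => ?_
    rw [← neg_smul, ent_apply, ent_apply, real_inner_comm, H.skew a z]
  smp k l z := sa_ent b (H.sp z) k l
  symmp k l z := by rw [ent_apply, ent_apply, ← H.symp, real_inner_comm]
  idem k l z := by rw [← ent_mul, H.idem]
  par k l z := by
    refine h.zero fun a => ?_
    have h1 := congrArg (ent b k l) (H.par a z)
    rw [map_add, map_sub, map_zero, ent_mul, ent_mul, ← dv_clm (ent b k l) (H.sp z).md] at h1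
    rw [inner_add_left, inner_mg, sum_inner, ← h1, ← Finset.sum_sub_distrib]
    congr 1
    refine Finset.sum_congr rfl fun m _ => ?_
    rw [inner_sub_left, real_inner_smul_left, real_inner_smul_left, inner_cW b hP H, inner_cW b hP H]
    ring

/-- the vector valued function with the given components -/
def toV (u : κ → N → ℝ) (x : N) : V := ∑ k, u k x • b k

/-- the components -/
def co (u : N → V) (k : κ) (x : N) : ℝ := ⟪b k, u x⟫_ℝ

theorem co_toV (u : κ → N → ℝ) : co b (toV b u) = u := by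
  funext k x; exact co_sum b _ k

theorem toV_co (u : N → V) : toV b (co b u) = u := by
  funext x; exact b.sum_repr' (u x)

theorem sa_toV {u : κ → N → ℝ} (hu : SmV (n := 4) u) (x : N) : SA (𝓡 4) (toV b u) x :=
  SA.sum Finset.univ fun k _ => SA.smul (hu k x) contMDiffAt_const

theorem sm_co {u : N → V} (hu : ∀ x, SA (𝓡 4) u x) : SmV (n := 4) (co b u) :=
  fun _ x => SA.inner contMDiffAt_const (hu x)

theorem dot_co (u v : N → V) (x : N) : ∑ k, co b u k x * co b v k x = ⟪u x, v x⟫_ℝ := inner_co b _ _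

theorem inner_cv (h : Pars e) (F : Frm (𝓡 4) e P c)
    (hP : ∀ a d x, (inner ℝ (e a x) (e d x) : ℝ) = P a d x) (H : Hb (𝓡 4) e P A p Q)
    {u : N → V} (hu : ∀ x, SA (𝓡 4) u x) (k : κ) (a : ι) (z : N) :
    (inner ℝ ((bun b h F hP H).cv (co b u) k z) (e a z) : ℝ) = ⟪b k, nab (𝓡 4) e A a u z⟫_ℝ := by
  rw [Bun.cv, inner_add_left, inner_mg, sum_inner, nab, inner_add_right, ← ent_sum]
  congr 1
  · exact dv_clm (innerSL ℝ (b k)) (hu z).md
  · refine Finset.sum_congr rfl fun l _ => ?_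
    rw [real_inner_smul_left, mul_comm]
    exact congrArg (· * _) (inner_cW b hP H k l a z)

variable [IsRiemannianManifold (𝓡 4) N] [MeasurableSpace N] [BorelSpace N]
  [SecondCountableTopology N] [Nonempty N]

theorem mu_eq [CompactSpace N] (h : Pars e) {μ : Measure N} (F : F4 e P c μ) :
    μ = (μHE[4] : Measure N) := by
  choose O hO hx hOs hμ using F.vol
  obtain ⟨t, ht⟩ := isCompact_univ.elim_finite_subcover O hO fun x _ => mem_iUnion.2 ⟨x, hx x⟩
  refine (Measure.ext_iff_of_biUnion_eq_univ (S := (t : Set N)) (s := O) t.countable_toSet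
    (univ_subset_iff.1 ht)).2 fun x _ => ?_
  ext s hs
  rw [Measure.restrict_apply hs, Measure.restrict_apply hs]
  have h1 : MeasurableSet (s ∩ O x) := hs.inter (hO x).measurableSet
  have h2 : s ∩ O x ⊆ (chartAt R4 x).source := inter_subset_right.trans (hOs x)
  have h3 : MeasurableSet (chartAt R4 x '' (s ∩ O x)) :=
    ms_img (I := 𝓡 4) x h1 (by rwa [extChartAt_source])
  have h4 : chartAt R4 x '' (s ∩ O x) ⊆ (chartAt R4 x).target := by
    rintro _ ⟨y, hy, rfl⟩; exact (chartAt R4 x).map_source (h2 hy)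
  have h5 := R247.Ms322.muHE_symm_image (n := 4) x h4 h3
  have h6 : (chartAt R4 x).symm '' (chartAt R4 x '' (s ∩ O x)) = s ∩ O x :=
    (chartAt R4 x).symm_image_image_of_subset_source h2
  rw [h6] at h5
  rw [h5, hμ x _ h1 inter_subset_right]
  refine setLIntegral_congr_fun h3 fun y hy => ?_
  rw [h.gr4_eq ((chartAt R4 x).map_target (h4 hy)), (chartAt R4 x).right_inv (h4 hy),
    Matrix.det_nonsing_inv, Ring.inverse_eq_inv', Real.sqrt_inv, inv_inv]
  rfl

/-- the data of R249 -/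
def dat (T : ToF 4 N) (h : Pars e) (F : Frm (𝓡 4) e P c)
    (hP : ∀ a d x, (inner ℝ (e a x) (e d x) : ℝ) = P a d x) (H : Hb (𝓡 4) e P A p Q) : Dat 4 N κ :=
  (bun b h F hP H).dat T (fun k l z => ent b k l (Q z)) (sm_ent b H.sQ)
    (fun k l z => by rw [ent_apply, ent_apply, ← H.symQ, real_inner_comm])
    (fun k l z => by
      change ∑ r, ent b k r (Q z) * ent b r l (p z) = ∑ r, ent b k r (p z) * ent b r l (Q z)
      rw [← ent_mul, ← ent_mul, H.comm])

variable (T : ToF 4 N) (h : Pars e) (F : Frm (𝓡 4) e P c)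
  (hP : ∀ a d x, (inner ℝ (e a x) (e d x) : ℝ) = P a d x) (H : Hb (𝓡 4) e P A p Q)

theorem sec_dat (u : N → V) : (dat b T h F hP H).Sec (co b u) ↔ ∀ x, p x (u x) = u x :=
  ⟨fun hs x => ext_co b fun k => (ent_sum b k (p x) (u x)).symm.trans (hs k x),
    fun hs k x => (ent_sum b k (p x) (u x)).trans (by rw [hs]; rfl)⟩

theorem ed_dat {u v : N → V} (hu : ∀ x, SA (𝓡 4) u x) (hv : ∀ x, SA (𝓡 4) v x) (z : N) :
    (dat b T h F hP H).ed (co b u) (co b v) z
      = ∑ a, ⟪nab (𝓡 4) e A a u z, nab (𝓡 4) e A a v z⟫_ℝ + ⟪Q z (u z), v z⟫_ℝ := by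
  unfold Dat.ed
  congr 1
  · have h1 : ∀ k, ⟪(dat b T h F hP H).cv (co b u) k z, (dat b T h F hP H).cv (co b v) k z⟫_ℝ
        = ∑ a, ⟪b k, nab (𝓡 4) e A a u z⟫_ℝ * ⟪b k, nab (𝓡 4) e A a v z⟫_ℝ := fun k => by
      have e1 : ∀ {u : N → V}, (∀ x, SA (𝓡 4) u x) → (dat b T h F hP H).cv (co b u) k z
          = T.toF z ((bun b h F hP H).cv (co b u) k z) := fun hu =>
        Bun.cv_dat T _ _ _ _ _ (sm_co b hu) k z
      rw [e1 hu, e1 hv, T.inner_toF, h.inner]
      simp only [inner_cv b h F hP H hu, inner_cv b h F hP H hv]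
    simp only [h1]
    rw [Finset.sum_comm]
    exact Finset.sum_congr rfl fun a _ => inner_co b _ _
  · rw [← inner_co b]
    refine Finset.sum_congr rfl fun k _ => ?_
    rw [← Finset.sum_mul, ← ent_sum]
    rfl

theorem curv_alg (εa εb da db cs B : Fin 4 → ℝ) (dB : Fin 4 → Fin 4 → ℝ) (h : ∀ l, da l - db l = cs l) :
    ∑ l, (da l * B l + εb l * ∑ i, εa i * dB i l) - ∑ l, (db l * B l + εa l * ∑ i, εb i * dB i l)
      - ∑ l, cs l * B l = ∑ i, ∑ l, εa i * εb l * (dB i l - dB l i) := by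
  simp only [← h, Fin.sum_univ_four]
  ring

theorem ent_A (k m : κ) (a : ι) {z x : N} (hx : x ∈ (chartAt R4 z).source) :
    ent b k m (A a x) = ∑ l, dv (𝓡 4) (e a) (chartAt R4 z) x l
      * cf z l ((dat b T h F hP H).X k m) (chartAt R4 z x) := by
  have h1 := sum_cf_toF T z ((chartAt R4 z).map_source hx) (cW b e A k m) (dCh z x (e a x))
  have h2 : vCh 4 z (cW b e A k m) (chartAt R4 z x) = dCh z x (cW b e A k m x) :=
    dCh_congr_point ((chartAt R4 z).left_inv hx) _ _
  rw [h2] at h1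
  exact (inner_cW b hP H k m a x).symm.trans
    ((inner_eq_bil z hx (cW b e A k m x) (e a x)).trans h1.symm)

theorem dv_ent_A (k m : κ) (a d : ι) (z : N) :
    dv (𝓡 4) (e a) (fun x => ent b k m (A d x)) z
      = ∑ l, (dv (𝓡 4) (e a) (dv (𝓡 4) (e d) fun x => chartAt R4 z x l) z
          * cf z l ((dat b T h F hP H).X k m) (chartAt R4 z z)
        + dv (𝓡 4) (e d) (chartAt R4 z) z l * ∑ i, dv (𝓡 4) (e a) (chartAt R4 z) z i
          * R249.HK286.pd i (cf z l ((dat b T h F hP H).X k m)) (chartAt R4 z z)) := by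
  have hz := mem_chart_source R4 z
  have hn := (chartAt R4 z).open_source.mem_nhds hz
  have hc : ∀ l, ∀ x ∈ (chartAt R4 z).source, dv (𝓡 4) (e d) (fun x => chartAt R4 z x l) x
      = dv (𝓡 4) (e d) (chartAt R4 z) x l := fun l x hx =>
    dv_clm (EuclideanSpace.proj l : R4 →L[ℝ] ℝ) (sa_chart hx).md
  have h1 : (fun x => ent b k m (A d x)) =ᶠ[𝓝 z] fun x => ∑ l,
      dv (𝓡 4) (e d) (fun x => chartAt R4 z x l) x
        * cf z l ((dat b T h F hP H).X k m) (chartAt R4 z x) := by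
    filter_upwards [hn] with x hx
    rw [ent_A b T h F hP H k m d hx]
    exact Finset.sum_congr rfl fun l _ => by rw [hc l x hx]
  have s1 : ∀ l, SA (𝓡 4) (dv (𝓡 4) (e d) fun x => chartAt R4 z x l) z := fun l =>
    F.sD d ((EuclideanSpace.proj l : R4 →L[ℝ] ℝ).contDiff.contMDiff.contMDiffAt.comp z (sa_chart hz))
  have s2 : ∀ l, SA (𝓡 4) (fun x => cf z l ((dat b T h F hP H).X k m) (chartAt R4 z x)) z := fun l =>
    ContMDiffAt.comp (f := chartAt R4 z) z (cd_cf (dat b T h F hP H) z l k m).contMDiffAt (sa_chart hz)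
  rw [dv_congr h1, dv_sum' Finset.univ fun l => (s1 l).mul (s2 l)]
  refine Finset.sum_congr rfl fun l _ => ?_
  rw [dv_mul (s1 l) (s2 l), hc l z hz, dv_comp (sa_chart hz).md
    ((cd_cf (dat b T h F hP H) z l k m).differentiableAt (by simp)).hasFDerivAt]
  congr 2
  nth_rewrite 1 [← (EuclideanSpace.basisFun (Fin 4) ℝ).sum_repr (dv (𝓡 4) (e a) (chartAt R4 z) z)]
  rw [map_sum]
  refine Finset.sum_congr rfl fun i _ => ?_
  rw [map_smul, EuclideanSpace.basisFun_apply]
  rfl

theorem mat_curv (a d : ι) (z : N) : mat b (curv (𝓡 4) e c A a d z)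
    = ∑ i, ∑ l, (dv (𝓡 4) (e a) (chartAt R4 z) z i * dv (𝓡 4) (e d) (chartAt R4 z) z l)
      • Fc (dat b T h F hP H) z i l (chartAt R4 z z) := by
  have hz := mem_chart_source R4 z
  ext k m
  have hbr : ∀ l, dv (𝓡 4) (e a) (dv (𝓡 4) (e d) fun x => chartAt R4 z x l) z
      - dv (𝓡 4) (e d) (dv (𝓡 4) (e a) fun x => chartAt R4 z x l) z
      = ∑ r, c a d r z * dv (𝓡 4) (e r) (chartAt R4 z) z l := fun l => by
    rw [F.br a d (fun x => chartAt R4 z x l) z
      ((EuclideanSpace.proj l : R4 →L[ℝ] ℝ).contDiff.contMDiff.contMDiffAt.comp z (sa_chart hz))]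
    exact Finset.sum_congr rfl fun r _ => congrArg _
      (dv_clm (EuclideanSpace.proj l : R4 →L[ℝ] ℝ) (sa_chart hz).md)
  have h1 := curv_alg (fun i => dv (𝓡 4) (e a) (chartAt R4 z) z i)
    (fun i => dv (𝓡 4) (e d) (chartAt R4 z) z i) _ _ _
    (fun l => cf z l ((dat b T h F hP H).X k m) (chartAt R4 z z))
    (fun i l => R249.HK286.pd i (cf z l ((dat b T h F hP H).X k m)) (chartAt R4 z z)) hbr
  rw [← dv_ent_A b T h F hP H, ← dv_ent_A b T h F hP H] at h1
  have h2 : ∑ l, (∑ r, c a d r z * dv (𝓡 4) (e r) (chartAt R4 z) z l)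
      * cf z l ((dat b T h F hP H).X k m) (chartAt R4 z z) = ∑ r, c a d r z * ent b k m (A r z) := by
    simp only [ent_A b T h F hP H k m _ hz, Finset.sum_mul, Finset.mul_sum, mul_assoc]
    exact Finset.sum_comm
  rw [h2, dv_clm (ent b k m) (H.sA d z).md, dv_clm (ent b k m) (H.sA a z).md] at h1
  have h3 : ent b k m (A a z * A d z) - ent b k m (A d z * A a z)
      = ∑ i, ∑ l, dv (𝓡 4) (e a) (chartAt R4 z) z i * dv (𝓡 4) (e d) (chartAt R4 z) z l *
        ∑ r, (cf z i ((dat b T h F hP H).X k r) (chartAt R4 z z)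
            * cf z l ((dat b T h F hP H).X r m) (chartAt R4 z z)
          - cf z l ((dat b T h F hP H).X k r) (chartAt R4 z z)
            * cf z i ((dat b T h F hP H).X r m) (chartAt R4 z z)) := by
    rw [ent_mul, ent_mul, ← Finset.sum_sub_distrib]
    simp only [Finset.mul_sum]
    rw [Finset.sum_comm]
    simp only [Finset.sum_comm (s := (Finset.univ : Finset (Fin 4))) (t := (Finset.univ : Finset κ))]
    refine Finset.sum_congr rfl fun r _ => ?_
    simp only [ent_A b T h F hP H _ _ _ hz, Fin.sum_univ_four]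
    ring
  simp only [Matrix.sum_apply, Matrix.smul_apply, smul_eq_mul, Fc, Matrix.of_apply, mat, Wz78.curv, map_sub,
    map_add, map_sum, map_smul, mul_add, Finset.sum_add_distrib]
  rw [← h1, ← h3]
  ring

/-- the heat density in the frame -/
theorem dn_dat (z : N) : dn (dat b T h F hP H) z = hd (𝓡 4) e c A p Q z := by
  have hz := mem_chart_source R4 z
  have hQ : Qc (dat b T h F hP H) z (chartAt R4 z z) = mat b (Q z) := by
    ext k l
    change ent b k l (Q ((chartAt R4 z).symm (chartAt R4 z z))) = _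
    rw [(chartAt R4 z).left_inv hz]; rfl
  have hp : Pc (dat b T h F hP H) z (chartAt R4 z z) = mat b (p z) := by
    ext k l
    change ent b k l (p ((chartAt R4 z).symm (chartAt R4 z z))) = _
    rw [(chartAt R4 z).left_inv hz]; rfl
  let B : Matrix κ κ ℝ →ₗ[ℝ] Matrix κ κ ℝ →ₗ[ℝ] ℝ := LinearMap.mk₂ ℝ
    (fun X Y => (X * mat b (p z) * Y * mat b (p z)).trace)
    (fun X X' Y => by simp only [add_mul, Matrix.trace_add])
    (fun r X Y => by simp only [smul_mul_assoc, Matrix.trace_smul])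
    (fun X Y Y' => by simp only [add_mul, mul_add, Matrix.trace_add])
    (fun r X Y => by simp only [smul_mul_assoc, mul_smul_comm, Matrix.trace_smul])
  have h1 := bil_sum2 B (fun a i => dv (𝓡 4) (e a) (chartAt R4 z) z i)
    (fun i l => Fc (dat b T h F hP H) z i l (chartAt R4 z z))
  have h2 : ∀ i k, ∑ a, dv (𝓡 4) (e a) (chartAt R4 z) z i * dv (𝓡 4) (e a) (chartAt R4 z) z k
      = inverseField (chartMetric 4 N z) (chartAt R4 z z) i k := fun i k =>
    congrFun (congrFun (h.gr4_eq hz) i) k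
  simp only [← mat_curv b T h F hP H, h2, B, LinearMap.mk₂_apply] at h1
  unfold dn den hd
  simp only [trL_mat b, mat_mul]
  rw [hQ, hp, h1]

end Crest.Agent.X212.Ind95
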