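import Crest.Agent.X212.Ind95.Rc
import Crest.Agent.R235.Riem_399

/-!
# X212 / IND (helper95), part 3: the Riemannian metric for which a spanning family is a Parseval frame
-/

set_option autoImplicit false
set_option linter.unusedSectionVars false
noncomputable section
open scoped Manifold ContDiff Topology InnerProductSpace Bundle
open MeasureTheory Set Function Filter Bundle

namespace Crest.Agent.X212.Ind95

open Crest.Agent.X212.Sob92 Crest.Agent.X212.Wz78 Crest.Agent.R240 Crest.Agent.R240.Ch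
  Crest.Agent.R235.Riem_399

section lin

variable {ι : Type} [Fintype ι] {v : ι → R4}

/-- the frame operator -/
def fop (v : ι → R4) : R4 →L[ℝ] R4 := ∑ a, (innerSL ℝ (v a)).smulRight (v a)

theorem fop_apply (v : ι → R4) (w : R4) : fop v w = ∑ a, ⟪v a, w⟫_ℝ • v a := by
  simp [fop]

theorem fop_symm (v : ι → R4) (u w : R4) : ⟪fop v u, w⟫_ℝ = ⟪u, fop v w⟫_ℝ := by
  simp only [fop_apply, sum_inner, inner_sum, real_inner_smul_left, real_inner_smul_right]
  exact Finset.sum_congr rfl fun a _ => by rw [real_inner_comm (v a) u]; ring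

theorem fop_pos (h : Submodule.span ℝ (range v) = ⊤) {w : R4} (hw : w ≠ 0) : 0 < ⟪fop v w, w⟫_ℝ := by
  have h1 : ⟪fop v w, w⟫_ℝ = ∑ a, ⟪v a, w⟫_ℝ ^ 2 := by
    simp only [fop_apply, sum_inner, real_inner_smul_left, sq]
  rw [h1]
  by_contra hc
  have h2 : ∑ a, ⟪v a, w⟫_ℝ ^ 2 = 0 :=
    le_antisymm (not_lt.1 hc) (Finset.sum_nonneg fun a _ => sq_nonneg _)
  rw [Finset.sum_eq_zero_iff_of_nonneg fun a _ => sq_nonneg _] at h2
  have h3 : w ∈ Submodule.span ℝ (range v) := by rw [h]; trivial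
  obtain ⟨ξ, hξ⟩ := (Submodule.mem_span_range_iff_exists_fun ℝ).1 h3
  apply hw
  rw [← inner_self_eq_zero (𝕜 := ℝ)]
  nth_rewrite 1 [← hξ]
  rw [sum_inner]
  refine Finset.sum_eq_zero fun a _ => ?_
  rw [real_inner_smul_left, pow_eq_zero_iff (two_ne_zero) |>.1 (h2 a (Finset.mem_univ a)), mul_zero]

theorem fop_unit (h : Submodule.span ℝ (range v) = ⊤) : IsUnit (fop v) := by
  have hi : Injective (fop v) := by
    refine (injective_iff_map_eq_zero _).2 fun w hw => ?_
    by_contra h0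
    have := fop_pos h h0
    rw [hw, inner_zero_left] at this
    exact lt_irrefl _ this
  have hb : Bijective (fop v : R4 →ₗ[ℝ] R4) := ⟨hi, LinearMap.injective_iff_surjective.1 hi⟩
  exact ContinuousLinearMap.isUnit_iff_bijective.2 hb

/-- the scalar product for which `v` is a Parseval frame -/
def gv (v : ι → R4) : R4 →L[ℝ] R4 →L[ℝ] ℝ :=
  (innerSL ℝ : R4 →L[ℝ] R4 →L[ℝ] ℝ).comp (Ring.inverse (fop v))

theorem gv_apply (v : ι → R4) (u w : R4) : gv v u w = ⟪Ring.inverse (fop v) u, w⟫_ℝ := rfl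

theorem fop_inv (h : Submodule.span ℝ (range v) = ⊤) (w : R4) :
    fop v (Ring.inverse (fop v) w) = w :=
  congrArg (fun T : R4 →L[ℝ] R4 => T w) (Ring.mul_inverse_cancel _ (fop_unit h))

theorem inv_fop (h : Submodule.span ℝ (range v) = ⊤) (w : R4) :
    Ring.inverse (fop v) (fop v w) = w :=
  congrArg (fun T : R4 →L[ℝ] R4 => T w) (Ring.inverse_mul_cancel _ (fop_unit h))

theorem gv_symm (h : Submodule.span ℝ (range v) = ⊤) (u w : R4) : gv v u w = gv v w u := by
  rw [gv_apply, gv_apply]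
  nth_rewrite 1 [← fop_inv h w]
  rw [← fop_symm, fop_inv h, real_inner_comm]

theorem gv_pos (h : Submodule.span ℝ (range v) = ⊤) {w : R4} (hw : w ≠ 0) : 0 < gv v w w := by
  have h1 : Ring.inverse (fop v) w ≠ 0 := fun h0 => hw (by rw [← fop_inv h w, h0, map_zero])
  have h2 := fop_pos h h1
  rw [fop_inv h, real_inner_comm] at h2
  exact h2

theorem gv_pars (h : Submodule.span ℝ (range v) = ⊤) (w : R4) : ∑ a, gv v (v a) w • v a = w := by
  nth_rewrite 2 [← fop_inv h w]
  rw [fop_apply]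
  exact Finset.sum_congr rfl fun a _ => by rw [gv_symm h, gv_apply, real_inner_comm]

theorem gv_uniq (h : Submodule.span ℝ (range v) = ⊤) {b : R4 →L[ℝ] R4 →L[ℝ] ℝ}
    (hb : ∀ w, ∑ a, b (v a) w • v a = w) : b = gv v := by
  ext u w
  rw [← fop_inv h u, gv_apply, inv_fop h, fop_apply, map_sum, sum_apply]
  nth_rewrite 2 [← hb w]
  rw [inner_sum]
  refine Finset.sum_congr rfl fun a _ => ?_
  rw [map_smul, smul_apply, real_inner_smul_right, real_inner_comm, smul_eq_mul,
    mul_comm]

theorem contDiffAt_gv {X : Type*} [NormedAddCommGroup X] [NormedSpace ℝ X] {v : ι → X → R4} {y : X}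
    (hv : ∀ a, ContDiffAt ℝ ∞ (v a) y) (h : Submodule.span ℝ (range fun a => v a y) = ⊤) :
    ContDiffAt ℝ ∞ (fun y => gv fun a => v a y) y := by
  have h1 : ContDiffAt ℝ ∞ (fun y => fop fun a => v a y) y := by
    refine ContDiffAt.sum fun a _ => ?_
    exact ((innerSL ℝ : R4 →L[ℝ] R4 →L[ℝ] ℝ).contDiff.contDiffAt.comp y (hv a)).smulRight (hv a)
  obtain ⟨u, hu⟩ := fop_unit h
  have h2 : ContDiffAt ℝ ∞ (Ring.inverse : (R4 →L[ℝ] R4) → R4 →L[ℝ] R4) (fop fun a => v a y) := by
    rw [← hu]; exact contDiffAt_ringInverse ℝ u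
  have h3 : ContDiffAt ℝ ∞ (fun y => Ring.inverse (fop fun a => v a y)) y :=
    ContDiffAt.comp (g := (Ring.inverse : (R4 →L[ℝ] R4) → R4 →L[ℝ] R4))
      (f := fun y => fop fun a => v a y) y h2 h1
  exact contDiffAt_const.clm_comp h3

end lin

variable {N : Type} [tN : TopologicalSpace N] [ChartedSpace R4 N] [IsManifold (𝓡 4) ∞ N]
  {ι : Type} [Fintype ι] {e : ι → (x : N) → TangentSpace (𝓡 4) x}

theorem met_gv (he : ∀ a x, ContMDiffAt (𝓡 4) (𝓡 4).tangent ∞
      (fun x => (⟨x, e a x⟩ : TangentBundle (𝓡 4) N)) x)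
    (hs : ∀ x, Submodule.span ℝ (range fun a => e a x) = ⊤) :
    Met (M := N) (fun x => gv fun a => e a x) where
  smooth p y hy := by
    have hsp : ∀ y ∈ (chartAt R4 p).target,
        Submodule.span ℝ (range fun a => repV p (e a) y) = ⊤ := by
      intro y hy
      have hx := symm_mem hy
      rw [eq_top_iff]
      intro w _
      have h1 : tcc p ((chartAt R4 p).symm y) ((chartAt R4 p).symm y) w
          ∈ Submodule.span ℝ (range fun a => atV (E := R4) (e a) ((chartAt R4 p).symm y)) := by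
        have h0 : Submodule.span ℝ (range fun a => atV (E := R4) (e a) ((chartAt R4 p).symm y)) = ⊤ :=
          hs _
        rw [h0]; trivial
      obtain ⟨ξ, hξ⟩ := (Submodule.mem_span_range_iff_exists_fun ℝ).1 h1
      refine (Submodule.mem_span_range_iff_exists_fun ℝ).2 ⟨ξ, ?_⟩
      rw [← tcc_cancel hx w, ← hξ, map_sum]
      simp only [map_smul]
      rfl
    have h1 : ∀ y ∈ (chartAt R4 p).target,
        rep p (fun x => gv fun a => e a x) y = gv fun a => repV p (e a) y := by
      intro y hy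
      have hx := symm_mem hy
      refine gv_uniq (hsp y hy) fun w => ?_
      have h2 := gv_pars (v := fun a => atV (E := R4) (e a) ((chartAt R4 p).symm y)) (hs _)
        (tcc p ((chartAt R4 p).symm y) ((chartAt R4 p).symm y) w)
      nth_rewrite 2 [← tcc_cancel hx w]
      rw [← h2, map_sum]
      refine Finset.sum_congr rfl fun a _ => ?_
      rw [map_smul, rep_apply]
      unfold repV
      rw [tcc_cancel' hx]
      rfl
    have h3 : ContDiffAt ℝ ∞ (fun y => gv fun a => repV p (e a) y) y := by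
      refine contDiffAt_gv (fun a => ?_) (hsp y hy)
      have h4 := (contMDiffAt_V (symm_mem hy) (e a)).1 (he a _)
      rwa [(chartAt R4 p).right_inv hy] at h4
    exact h3.contDiffWithinAt.congr h1 (h1 y hy)
  symm x u v := gv_symm (hs x) u v
  pos x v hv := gv_pos (hs x) hv

/-- the Riemannian instances -/
theorem exists_riem4 [T2Space N] [ConnectedSpace N] (he : ∀ a x, ContMDiffAt (𝓡 4) (𝓡 4).tangent ∞
      (fun x => (⟨x, e a x⟩ : TangentBundle (𝓡 4) N)) x)
    (hs : ∀ x, Submodule.span ℝ (range fun a => e a x) = ⊤) :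
    ∃ (_ : RiemannianBundle (fun x : N => TangentSpace (𝓡 4) x))
      (_ : IsContMDiffRiemannianBundle (𝓡 4) ∞ R4 (fun x : N => TangentSpace (𝓡 4) x))
      (mM : MetricSpace N), mM.toPseudoMetricSpace.toUniformSpace.toTopologicalSpace = tN ∧
      (∀ x y : N, mM.edist x y = Manifold.riemannianEDist (𝓡 4) x y) ∧
      ∀ (x : N) (v : TangentSpace (𝓡 4) x), ∑ a, (inner ℝ (e a x) v : ℝ) • e a x = v := by
  obtain ⟨rb, crb, mM, h1, h2, h3⟩ := exists_riem (met_gv he hs)
  refine ⟨rb, crb, mM, h1, h2, fun x v => ?_⟩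
  simp only [h3]
  exact gv_pars (hs x) v

end Crest.Agent.X212.Ind95
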