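import Crest.Agent.X212.Ind95.Dat
import Crest.Agent.X212.Ind95.Met
import Crest.Agent.R249.Tv12_57
import Crest.Agent.R249.HKEnd_286
import Crest.Agent.R249.TofM_352

/-!
# X212 / IND (helper95), part 6: McKean-Singer and the heat density in the frame format

`index_raw` : for an adjoint pair with the weak Weitzenboeck identities (`Pr2`) on a closed connected
four-manifold with a frame `An.Fr` (any boundaryless model):
`dim ker D - dim ker D' = ∫ (hd A p Q - hd A' p' Q')`.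
-/

set_option autoImplicit false
set_option maxSynthPendingDepth 3
set_option linter.unusedSectionVars false
noncomputable section
open scoped Manifold ContDiff Topology InnerProductSpace Bundle ENNReal
open MeasureTheory Set Function Filter Bundle

namespace Crest.Agent.X212.Ind95

open Crest.Agent.X212.Sob92 Crest.Agent.X212.Wz78 Crest.Agent.X212.An
open Crest.Agent.R249.Tv57 Crest.Agent.R249.Tz805

variable {ι : Type} [Fintype ι]
  {V W : Type} [NormedAddCommGroup V] [InnerProductSpace ℝ V] [FiniteDimensional ℝ V]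
  [NormedAddCommGroup W] [InnerProductSpace ℝ W] [FiniteDimensional ℝ W]

theorem trL_proj_ne {κ : Type} [Fintype κ] (b : OrthonormalBasis κ ℝ V) {p : V →L[ℝ] V}
    (hs : ∀ v w, ⟪p v, w⟫_ℝ = ⟪v, p w⟫_ℝ) (hi : p * p = p) :
    p ≠ 0 ↔ ∃ k, ent b k k p ≠ 0 := by
  refine ⟨fun h => ?_, fun ⟨k, hk⟩ h => hk (by rw [h, map_zero])⟩
  by_contra hc
  push Not at hc
  apply h
  have h1 : ∀ k, p (b k) = 0 := fun k => by
    rw [← inner_self_eq_zero (𝕜 := ℝ), hs]
    have h2 := hc k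
    rw [← hi] at h2
    exact h2
  ext v
  rw [← b.sum_repr' v, map_sum]
  simp [h1]

theorem trL_proj_pos {p : V →L[ℝ] V} (hs : ∀ v w, ⟪p v, w⟫_ℝ = ⟪v, p w⟫_ℝ) (hi : p * p = p) :
    p ≠ 0 ↔ trL p ≠ 0 := by
  refine ⟨fun h => ?_, fun h h0 => h (by rw [h0, map_zero])⟩
  obtain ⟨k, hk⟩ := (trL_proj_ne (stdOrthonormalBasis ℝ V) hs hi).1 h
  have h1 : ∀ k, 0 ≤ ent (stdOrthonormalBasis ℝ V) k k p := fun k => by
    rw [← hi]
    change 0 ≤ ⟪_, p (p _)⟫_ℝ
    rw [← hs]; exact real_inner_self_nonneg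
  rw [trL_eq (stdOrthonormalBasis ℝ V)]
  intro h0
  exact hk ((Finset.sum_eq_zero_iff_of_nonneg fun k _ => h1 k).1 h0 k (Finset.mem_univ k))

section riem

variable {N : Type} [MetricSpace N] [ChartedSpace R4 N] [IsManifold (𝓡 4) ∞ N]
  [RiemannianBundle (fun p : N => TangentSpace (𝓡 4) p)]
  [IsContMDiffRiemannianBundle (𝓡 4) ∞ R4 (fun p : N => TangentSpace (𝓡 4) p)]
  [IsRiemannianManifold (𝓡 4) N] [MeasurableSpace N] [BorelSpace N]
  [SecondCountableTopology N] [Nonempty N]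
  {e : ι → (x : N) → TangentSpace (𝓡 4) x} {P : ι → ι → N → ℝ} {c : ι → ι → ι → N → ℝ}
  {A : ι → N → V →L[ℝ] V} {p Q : N → V →L[ℝ] V} {A' : ι → N → W →L[ℝ] W} {p' Q' : N → W →L[ℝ] W}
  {D : (N → V) → N → W} {D' : (N → W) → N → V}
  {κ κ' : Type} [Fintype κ] [Fintype κ'] (b : OrthonormalBasis κ ℝ V) (b' : OrthonormalBasis κ' ℝ W)
  (T : ToF 4 N) (h : Pars e) (F : Frm (𝓡 4) e P c)
  (hP : ∀ a d x, (inner ℝ (e a x) (e d x) : ℝ) = P a d x)

theorem ss_toV (H : Hb (𝓡 4) e P A p Q) {u : κ → N → ℝ} (hu : SmV (n := 4) u)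
    (hs : (dat b T h F hP H).Sec u) : SS (𝓡 4) p (toV b u) :=
  ⟨sa_toV b hu, (sec_dat b T h F hP H _).1 (by rwa [co_toV])⟩

theorem toV_lin (r s : ℝ) (u v : κ → N → ℝ) :
    toV b (fun x z => r * u x z + s * v x z) = fun z => r • toV b u z + s • toV b v z := by
  funext z
  simp only [toV, add_smul, mul_smul, Finset.sum_add_distrib, Finset.smul_sum]

theorem co_lin (r s : ℝ) (u v : N → V) :
    co b (fun z => r • u z + s • v z) = fun x z => r * co b u x z + s * co b v x z := by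
  funext x z
  simp only [co, inner_add_right, real_inner_smul_right]

/-- the pair of R249 -/
def dpair (R : Pr2 (𝓡 4) e P (μHE[4] : Measure N) A p Q A' p' Q' D D') :
    DPair (dat b T h F hP R.h0) (dat b' T h F hP R.h1) where
  A u := co b' (D (toV b u))
  B w := co b (D' (toV b' w))
  smA u hu := sm_co b' (R.sm0 _ (sa_toV b hu))
  smB u hu := sm_co b (R.sm1 _ (sa_toV b' hu))
  secA u hu hs := (sec_dat b' T h F hP R.h1 _).2 (R.sec0 _ (ss_toV b T h F hP R.h0 hu hs))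
  secB u hu hs := (sec_dat b T h F hP R.h0 _).2 (R.sec1 _ (ss_toV b' T h F hP R.h1 hu hs))
  linA r s u v hu hv := by rw [toV_lin, R.lin0 r s _ _ (sa_toV b hu) (sa_toV b hv), co_lin]
  linB r s u v hu hv := by rw [toV_lin, R.lin1 r s _ _ (sa_toV b' hu) (sa_toV b' hv), co_lin]
  adj u w hu hw hsu hsw := by
    have h1 := R.adj _ _ (ss_toV b T h F hP R.h0 hu hsu) (ss_toV b' T h F hP R.h1 hw hsw)
    simp only [← dot_co b', ← dot_co b, co_toV] at h1
    exact h1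
  w0 u v hu hv hsu hsv := by
    have h1 := R.w0 _ _ (ss_toV b T h F hP R.h0 hu hsu) (ss_toV b T h F hP R.h0 hv hsv)
    simp only [← ed_dat b T h F hP R.h0 (sa_toV b hu) (sa_toV b hv), co_toV] at h1
    simp only [dot_co]
    exact h1
  w1 u v hu hv hsu hsv := by
    have h1 := R.w1 _ _ (ss_toV b' T h F hP R.h1 hu hsu) (ss_toV b' T h F hP R.h1 hv hsv)
    simp only [← ed_dat b' T h F hP R.h1 (sa_toV b' hu) (sa_toV b' hv), co_toV] at h1
    simp only [dot_co]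
    exact h1

theorem kdim_of (H : Hb (𝓡 4) e P A p Q)
    (hl : ∀ (r s : ℝ) u v, (∀ x, SA (𝓡 4) u x) → (∀ x, SA (𝓡 4) v x) →
      D (fun x => r • u x + s • v x) = fun x => r • D u x + s • D v x) {d : ℕ}
    (K : KerD (dat b T h F hP H) (fun u => co b' (D (toV b u))) d) : KDim (𝓡 4) p D d := by
  have hz : ∀ u : N → W, (∀ k z, co b' u k z = 0) → u = 0 := fun u hu => by
    rw [← toV_co b' u]
    funext z
    simp [toV, hu]
  refine ⟨fun i => toV b (K.u i), ?_, fun u => ⟨fun ⟨hu, h0⟩ => ?_, fun hu => ?_⟩⟩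
  · rw [Fintype.linearIndependent_iff]
    intro g hg
    refine Fintype.linearIndependent_iff.1 K.li g ?_
    funext k z
    have h1 := congrArg (fun u => co b u k z) hg
    simp only [co, Finset.sum_apply, Pi.smul_apply, inner_sum, real_inner_smul_right, Pi.zero_apply,
      inner_zero_right] at h1
    simp only [Finset.sum_apply, Pi.smul_apply, smul_eq_mul, Pi.zero_apply]
    rw [← h1]
    exact Finset.sum_congr rfl fun i _ => congrArg _ (congrFun (congrFun (co_toV b (K.u i)) k) z).symm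
  · have h1 := K.span (co b u) (sm_co b hu.1) ((sec_dat b T h F hP H _).2 hu.2) fun k z => by
      rw [toV_co, h0]; exact inner_zero_right _
    refine (Submodule.mem_span_range_iff_exists_fun ℝ).2 ⟨fun i => ip 4 (co b u) (K.u i), ?_⟩
    nth_rewrite 2 [← toV_co b u]
    funext z
    simp only [Finset.sum_apply, Pi.smul_apply, toV, Finset.smul_sum, smul_smul]
    rw [Finset.sum_comm]
    exact Finset.sum_congr rfl fun k _ => by rw [← Finset.sum_smul, ← h1 k z]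
  · induction hu using Submodule.span_induction with
    | mem u hu =>
      obtain ⟨i, rfl⟩ := hu
      exact ⟨ss_toV b T h F hP H (K.smooth i) (K.sec i), hz _ (K.ker i)⟩
    | zero =>
      refine ⟨⟨fun x => contMDiffAt_const, fun x => map_zero _⟩, ?_⟩
      have h1 := hl 0 0 0 0 (fun x => contMDiffAt_const) (fun x => contMDiffAt_const)
      simp only [zero_smul, add_zero] at h1
      exact h1
    | add u v _ _ hu hv =>
      refine ⟨⟨fun x => (hu.1.1 x).add (hv.1.1 x), fun x => ?_⟩, ?_⟩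
      · rw [Pi.add_apply, map_add, hu.1.2, hv.1.2]
      · have h1 := hl 1 1 u v hu.1.1 hv.1.1
        simp only [one_smul, hu.2, hv.2, Pi.zero_apply, add_zero] at h1
        exact h1
    | smul r u _ hu =>
      refine ⟨⟨fun x => SA.smul (f := fun _ => r) contMDiffAt_const (hu.1.1 x), fun x => ?_⟩, ?_⟩
      · rw [Pi.smul_apply, map_smul, hu.1.2]
      · have h1 := hl r 0 u u hu.1.1 hu.1.1
        simp only [zero_smul, hu.2, Pi.zero_apply, add_zero, smul_zero] at h1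
        exact h1

include h F hP in
theorem index_riem [CompactSpace N] [ConnectedSpace N]
    (R : Pr2 (𝓡 4) e P (μHE[4] : Measure N) A p Q A' p' Q' D D') (hne : ∃ x, p x ≠ 0) :
    ∃ d d' : ℕ, KDim (𝓡 4) p D d ∧ KDim (𝓡 4) p' D' d' ∧
      (d : ℝ) - d' = ∫ x, (hd (𝓡 4) e c A p Q x - hd (𝓡 4) e c A' p' Q' x) ∂(μHE[4] : Measure N) := by
  let b := stdOrthonormalBasis ℝ V
  let b' := stdOrthonormalBasis ℝ W
  let T := R249.Tof352.tof 4 N
  obtain ⟨z, hz⟩ := hne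
  have hz' : p' z ≠ 0 := by
    rw [trL_proj_pos (R.h1.symp z) (R.h1.idem z), ← R.rk]
    exact (trL_proj_pos (R.h0.symp z) (R.h0.idem z)).1 hz
  have hq : ∀ {X : Type} [NormedAddCommGroup X] [InnerProductSpace ℝ X] [FiniteDimensional ℝ X]
      {κ : Type} [Fintype κ] (b : OrthonormalBasis κ ℝ X) (Q p : X →L[ℝ] X),
      (∀ v w, ⟪p v, w⟫_ℝ = ⟪v, p w⟫_ℝ) → ∑ k, ∑ l, ent b k l Q * ent b k l p = trL (Q * p) := by
    intro X _ _ _ κ _ b Q p hp
    rw [trL_eq b]
    refine Finset.sum_congr rfl fun k _ => ?_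
    rw [ent_mul]
    refine Finset.sum_congr rfl fun l _ => ?_
    rw [ent_apply b k l p, ent_apply b l k p, ← hp, real_inner_comm]
  obtain ⟨d, d', K, K', -, h2⟩ := index_D R249.HK286.chartStmt (dpair b b' T h F hP R)
    ⟨z, (trL_proj_ne b (R.h0.symp z) (R.h0.idem z)).1 hz⟩
    ⟨z, (trL_proj_ne b' (R.h1.symp z) (R.h1.idem z)).1 hz'⟩
    (fun z => (trL_eq b _).symm.trans ((R.rk z).trans (trL_eq b' _)))
    (fun z => (hq b _ _ (R.h0.symp z)).trans ((R.trQ z).trans (hq b' _ _ (R.h1.symp z)).symm))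
  refine ⟨d, d', kdim_of b b' T h F hP R.h0 R.lin0 K, kdim_of b' b T h F hP R.h1 R.lin1 K', ?_⟩
  simp only [dn_dat] at h2
  exact h2

end riem

theorem index_f4 {N : Type} [tN : TopologicalSpace N] [ChartedSpace R4 N] [IsManifold (𝓡 4) ∞ N]
    [MeasurableSpace N] [BorelSpace N] [T2Space N] [CompactSpace N] [ConnectedSpace N]
    {e : ι → (x : N) → TangentSpace (𝓡 4) x} {P : ι → ι → N → ℝ} {c : ι → ι → ι → N → ℝ}
    {μ : Measure N} (F : F4 e P c μ)
    {A : ι → N → V →L[ℝ] V} {p Q : N → V →L[ℝ] V} {A' : ι → N → W →L[ℝ] W} {p' Q' : N → W →L[ℝ] W}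
    {D : (N → V) → N → W} {D' : (N → W) → N → V} (R : Pr2 (𝓡 4) e P μ A p Q A' p' Q' D D')
    (hne : ∃ x, p x ≠ 0) :
    ∃ d d' : ℕ, KDim (𝓡 4) p D d ∧ KDim (𝓡 4) p' D' d' ∧
      (d : ℝ) - d' = ∫ x, (hd (𝓡 4) e c A p Q x - hd (𝓡 4) e c A' p' Q' x) ∂μ := by
  obtain ⟨rb, crb, mM, rfl, hd, hp⟩ := exists_riem4 F.frm.se F.span
  have : IsRiemannianManifold (𝓡 4) N := ⟨hd⟩
  have : SecondCountableTopology N := ChartedSpace.secondCountable_of_sigmaCompact R4 N
  have hμ := mu_eq hp F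
  subst hμ
  exact index_riem hp F.frm (Pars.eq_P hp F.frm F.ker) R hne

variable {E : Type} [NormedAddCommGroup E] [NormedSpace ℝ E] [FiniteDimensional ℝ E]
  [MeasurableSpace E] [BorelSpace E]
  {HM : Type} [TopologicalSpace HM] {I : ModelWithCorners ℝ E HM} [I.Boundaryless]
  {M : Type} [TopologicalSpace M] [ChartedSpace HM M] [IsManifold I ∞ M]
  [MeasurableSpace M] [BorelSpace M]

theorem Hb.rc (L : E ≃L[ℝ] R4) {e : ι → (x : M) → TangentSpace I x} {P : ι → ι → M → ℝ}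
    {A : ι → M → V →L[ℝ] V} {p Q : M → V →L[ℝ] V} (H : Hb I e P A p Q) :
    Hb (M := Rc I L M) (𝓡 4) (fun a => rce L (e a)) P A p Q where
  sA a x := (sa_rc le_rfl).2 (H.sA a x)
  proj := H.proj
  skew := H.skew
  sp x := (sa_rc le_rfl).2 (H.sp x)
  symp := H.symp
  idem := H.idem
  par a x := by
    have h := H.par a x
    rw [← show dv (𝓡 4) (rce L (e a)) (up I L p) x = dv I (e a) p x from
      congrFun (dv_rc (e a) p) x] at h
    exact h
  sQ x := (sa_rc le_rfl).2 (H.sQ x)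
  symQ := H.symQ
  comm := H.comm

theorem nab_rc (L : E ≃L[ℝ] R4) (e : ι → (x : M) → TangentSpace I x) (A : ι → M → V →L[ℝ] V) (a : ι)
    (u : M → V) : nab (M := Rc I L M) (𝓡 4) (fun a => rce L (e a)) A a u = nab I e A a u :=
  funext fun x => congrArg (· + A a x (u x)) (congrFun (dv_rc (e a) u) x)

theorem curv_rc (L : E ≃L[ℝ] R4) (e : ι → (x : M) → TangentSpace I x) (c : ι → ι → ι → M → ℝ)
    (A : ι → M → V →L[ℝ] V) (a d : ι) :
    curv (M := Rc I L M) (𝓡 4) (fun a => rce L (e a)) c A a d = curv I e c A a d :=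
  funext fun x => congrArg₂
    (fun S T => S - T + (A a x * A d x - A d x * A a x) - ∑ k, c a d k x • A k x)
    (congrFun (dv_rc (e a) (A d)) x) (congrFun (dv_rc (e d) (A a)) x)

theorem sa_rc' (L : E ≃L[ℝ] R4) {X : Type} [NormedAddCommGroup X] [NormedSpace ℝ X] (u : M → X) :
    (∀ x, SA (M := Rc I L M) (𝓡 4) u x) ↔ ∀ x, SA I u x :=
  forall_congr' fun _ => sa_rc le_rfl

theorem ss_rc (L : E ≃L[ℝ] R4) (p : M → V →L[ℝ] V) (u : M → V) :
    SS (M := Rc I L M) (𝓡 4) p u ↔ SS I p u := and_congr (sa_rc' L u) Iff.rfl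

theorem Pr2.rc (L : E ≃L[ℝ] R4) {e : ι → (x : M) → TangentSpace I x} {P : ι → ι → M → ℝ}
    {μ : Measure M}
    {A : ι → M → V →L[ℝ] V} {p Q : M → V →L[ℝ] V} {A' : ι → M → W →L[ℝ] W} {p' Q' : M → W →L[ℝ] W}
    {D : (M → V) → M → W} {D' : (M → W) → M → V} (R : Pr2 I e P μ A p Q A' p' Q' D D') :
    Pr2 (M := Rc I L M) (𝓡 4) (fun a => rce L (e a)) P μ A p Q A' p' Q' D D' where
  h0 := R.h0.rc _
  h1 := R.h1.rc _
  sm0 u hu := (sa_rc' _ _).2 (R.sm0 u ((sa_rc' _ _).1 hu))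
  sm1 u hu := (sa_rc' _ _).2 (R.sm1 u ((sa_rc' _ _).1 hu))
  sec0 u hu := R.sec0 u ((ss_rc _ _ _).1 hu)
  sec1 u hu := R.sec1 u ((ss_rc _ _ _).1 hu)
  lin0 r s u v hu hv := R.lin0 r s u v ((sa_rc' _ _).1 hu) ((sa_rc' _ _).1 hv)
  lin1 r s u v hu hv := R.lin1 r s u v ((sa_rc' _ _).1 hu) ((sa_rc' _ _).1 hv)
  adj u w hu hw := R.adj u w ((ss_rc _ _ _).1 hu) ((ss_rc _ _ _).1 hw)
  w0 := fun (u v : M → V) hu hv => by
    have h := R.w0 u v ((ss_rc _ _ _).1 hu) ((ss_rc _ _ _).1 hv)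
    simp only [← nab_rc L] at h
    exact h
  w1 := fun (u v : M → W) hu hv => by
    have h := R.w1 u v ((ss_rc _ _ _).1 hu) ((ss_rc _ _ _).1 hv)
    simp only [← nab_rc L] at h
    exact h
  loc0 := R.loc0
  loc1 := R.loc1
  rk := R.rk
  trQ := R.trQ

theorem KDim.of_rc (L : E ≃L[ℝ] R4) {p : M → V →L[ℝ] V} {D : (M → V) → M → W} {d : ℕ}
    (h : KDim (M := Rc I L M) (𝓡 4) p D d) : KDim I p D d := by
  obtain ⟨β, hβ, h1⟩ := h
  exact ⟨β, hβ, fun u => (and_congr (ss_rc _ _ _).symm Iff.rfl).trans (h1 u)⟩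

/-- **McKean-Singer and the heat density**, any model -/
theorem index_raw [T2Space M] [CompactSpace M] [ConnectedSpace M] (hE : Module.finrank ℝ E = 4)
    (F : Fr I M ι) (hv : F.IsVol)
    {A : ι → M → V →L[ℝ] V} {p Q : M → V →L[ℝ] V} {A' : ι → M → W →L[ℝ] W} {p' Q' : M → W →L[ℝ] W}
    {D : (M → V) → M → W} {D' : (M → W) → M → V} (R : Pr2 I F.e F.P F.μ A p Q A' p' Q' D D')
    (hne : ∃ x, p x ≠ 0) :
    ∃ d d' : ℕ, KDim I p D d ∧ KDim I p' D' d' ∧
      (d : ℝ) - d' = ∫ x, (hd I F.e F.c A p Q x - hd I F.e F.c A' p' Q' x) ∂F.μ := by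
  obtain ⟨d, d', h1, h2, h3⟩ := index_f4 (f4_of_fr hE F hv) (R.rc (L4 hE)) hne
  refine ⟨d, d', h1.of_rc _, h2.of_rc _, ?_⟩
  simp only [hd, ← curv_rc (L4 hE)]
  exact h3

end Crest.Agent.X212.Ind95
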